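import Vale.Agent.P235.H957.Laws
import Vale.Agent.P235.H684.End

/-!
P235 (helper77): the environment as a product law, the laws of level cuts of one function, and the
Markov law of the cuts in a fixed environment.
-/

namespace Vale.Agent.N235Y

set_option linter.unusedSectionVars false

open Finset Function Vale.Agent.P235 Vale.Agent.P235.H684 Vale.Agent.P235.H485

section prod

variable {ι β : Type} [Fintype ι] [DecidableEq ι] [Fintype β]

/-- resampling one coordinate of a product law -/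
theorem resample (p : ι → β → ℝ) (hp : ∀ i, ∑ b, p i b = 1) (i : ι) (Φ : (ι → β) → ℝ) :
    ∑ ξ : ι → β, (∏ j, p j (ξ j)) * Φ ξ =
      ∑ ξ : ι → β, (∏ j, p j (ξ j)) * ∑ b, p i b * Φ (update ξ i b) := by
  let sw : (ι → β) × β → (ι → β) × β := fun z => (update z.1 i z.2, z.1 i)
  have hsw : Involutive sw := fun z => by simp [sw]
  have hW : ∀ (ξ : ι → β) (b : β), (∏ j, p j (ξ j)) * p i b =
      (∏ j, p j (update ξ i b j)) * p i (ξ i) := by
    intro ξ b
    rw [← mul_prod_erase univ (fun j => p j (ξ j)) (mem_univ i),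
      ← mul_prod_erase univ (fun j => p j (update ξ i b j)) (mem_univ i), update_self]
    have h : ∏ j ∈ univ.erase i, p j (update ξ i b j) = ∏ j ∈ univ.erase i, p j (ξ j) :=
      prod_congr rfl fun j hj => by rw [update_of_ne (ne_of_mem_erase hj)]
    rw [h]
    ring
  have h1 := Equiv.sum_comp hsw.toPerm
    (fun z : (ι → β) × β => (∏ j, p j (z.1 j)) * p i z.2 * Φ z.1)
  rw [Fintype.sum_prod_type, Fintype.sum_prod_type] at h1
  have h2 : ∀ ξ : ι → β, ∑ b, (∏ j, p j (ξ j)) * p i b * Φ ξ = (∏ j, p j (ξ j)) * Φ ξ := by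
    intro ξ
    rw [← sum_mul, ← mul_sum, hp, mul_one]
  rw [← sum_congr rfl fun ξ _ => h2 ξ, ← h1]
  refine sum_congr rfl fun ξ _ => ?_
  rw [mul_sum]
  refine sum_congr rfl fun b _ => ?_
  rw [← mul_assoc, hW ξ b]
  rfl

theorem sum_prod_one (p : ι → β → ℝ) (hp : ∀ i, ∑ b, p i b = 1) :
    ∑ ξ : ι → β, ∏ j, p j (ξ j) = 1 := by
  classical
  have h := prod_univ_sum (fun _ : ι => (univ : Finset β)) p
  rw [Fintype.piFinset_univ] at h
  rw [← h]
  simp [hp]

end prod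

variable {n : ℕ}

/-- the law of the level cuts of one function -/
noncomputable def lw (K : ℝ) (u : Fin n → ℝ) : (Fin n → Bool) → ℝ :=
  H957.lawOf K (fun _ : Unit => 1) fun _ => u

theorem lw_isLaw {K : ℝ} (hK : 0 < K) (u : Fin n → ℝ) : IsLaw (lw K u) :=
  H957.lawOf_isLaw hK (fun _ => zero_le_one) (by simp) _

theorem Ex_lw (K : ℝ) (u : Fin n → ℝ) (h : (Fin n → Bool) → ℝ) :
    Ex (lw K u) h = cutI K univ u (fun S => h (toB S)) / (2 * K) := by
  unfold lw
  rw [H957.Ex_lawOf]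
  simp [mu, cutE]

theorem Ex_lw_dep (K : ℝ) (u : Fin n → ℝ) {A : Finset (Fin n)} {h : (Fin n → Bool) → ℝ}
    (hh : DepOn (A : Set (Fin n)) h) :
    Ex (lw K u) h = cutI K A u (fun S => h (toB S)) / (2 * K) := by
  unfold lw
  rw [H957.Ex_lawOf, mu_dep K _ _ A fun X X' hX => hh X X' hX]
  simp [cutE]

theorem Ex_lw_avg {ι : Type} [Fintype ι] {K : ℝ} (q : ι → ℝ) (hq : ∀ w, 0 ≤ q w)
    (u : ι → Fin n → ℝ) (ub : Fin n → ℝ) {A : Finset (Fin n)} {h : (Fin n → Bool) → ℝ}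
    (hh : DepOn (A : Set (Fin n)) h)
    (hce : ∀ a ∈ A, ∑ w, q w * u w a = (∑ w, q w) * ub a)
    (hord : ∀ a ∈ A, ∀ b ∈ A, (∀ w, 0 < q w → u w a ≤ u w b) ∨ (∀ w, 0 < q w → u w b ≤ u w a))
    (hb : ∀ w, ∀ a ∈ A, |u w a| ≤ K) :
    ∑ w, q w * Ex (lw K (u w)) h = (∑ w, q w) * Ex (lw K ub) h := by
  simp only [Ex_lw_dep K _ hh, ← mul_div_assoc]
  rw [← sum_div, cutI_avg q hq u ub _ A hce hord fun w _ => hb w]

theorem Ex_lw_mono {K : ℝ} (hK : 0 < K) (u : Fin n → ℝ) {h h' : (Fin n → Bool) → ℝ}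
    (hh : ∀ T : ℝ, h (toB (cut univ u T)) ≤ h' (toB (cut univ u T))) :
    Ex (lw K u) h ≤ Ex (lw K u) h' := by
  rw [Ex_lw, Ex_lw]
  refine div_le_div_of_nonneg_right ?_ (by linarith)
  exact intervalIntegral.integral_mono_on (by linarith)
    (intervalIntegrable_cut univ u (fun S => h (toB S)) _ _)
    (intervalIntegrable_cut univ u (fun S => h' (toB S)) _ _) fun T _ => hh T

theorem Ex_lw_val {K : ℝ} {u : Fin n → ℝ} {x : Fin n} (hx : |u x| ≤ K) :
    Ex (lw K u) (H684.val x) = (u x + K) / (2 * K) := by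
  rw [Ex_lw, ← cutI_mem (mem_univ x) hx]
  congr 2
  funext S
  simp [H684.val, toB]

theorem Ex_lw_dif {K : ℝ} {u : Fin n → ℝ} {x y : Fin n} (hx : |u x| ≤ K) (hy : |u y| ≤ K) :
    Ex (lw K u) (dif x y) = |u x - u y| / (2 * K) := by
  rw [Ex_lw, ← cutI_ne (mem_univ x) (mem_univ y) hx hy]
  congr 2
  funext S
  by_cases h1 : x ∈ S <;> by_cases h2 : y ∈ S <;> simp [dif, toB, h1, h2]

/-- random functions over a tree, with their pair laws -/
structure Env (E : Elim n) (O : Type) [Fintype O] where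
  P : Fin n → O → ℝ
  Q : Fin n → O → O → ℝ
  g : Fin n → O → Fin n → ℝ
  K : ℝ
  o0 : O
  K_pos : 0 < K
  P_nonneg : ∀ t o, 0 ≤ P t o
  P_sum : ∀ t, ∑ o, P t o = 1
  Q_nonneg : ∀ t o o', 0 ≤ Q t o o'
  Q_left : ∀ t, E.par t ≠ t → ∀ o, ∑ o', Q t o o' = P (E.par t) o
  Q_right : ∀ t, E.par t ≠ t → ∀ o', ∑ o, Q t o o' = P t o'
  ce : ∀ t, E.par t ≠ t → ∀ o', ∀ a ∈ E.A t, ∑ o, Q t o o' * g (E.par t) o a = P t o' * g t o' a
  ord : ∀ t, E.par t ≠ t → ∀ o', ∀ a ∈ E.A t, ∀ b ∈ E.A t,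
    (∀ o, 0 < Q t o o' → g (E.par t) o a ≤ g (E.par t) o b) ∨
      (∀ o, 0 < Q t o o' → g (E.par t) o b ≤ g (E.par t) o a)
  bd : ∀ t o p, |g t o p| ≤ K

namespace Env

variable {E : Elim n} {O : Type} [Fintype O] [DecidableEq O] (R : Env E O)

open Classical in
/-- the transition probabilities of the environment -/
noncomputable def kk (i : Fin n × O) (o' : O) : ℝ :=
  if E.par i.1 = i.1 ∨ R.P (E.par i.1) i.2 = 0 then R.P i.1 o'
  else R.Q i.1 i.2 o' / R.P (E.par i.1) i.2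

omit [DecidableEq O] in
theorem kk_nonneg (i : Fin n × O) (o' : O) : 0 ≤ R.kk i o' := by
  unfold kk
  split_ifs
  · exact R.P_nonneg _ _
  · exact div_nonneg (R.Q_nonneg _ _ _) (R.P_nonneg _ _)

omit [DecidableEq O] in
theorem kk_sum (i : Fin n × O) : ∑ o', R.kk i o' = 1 := by
  unfold kk
  by_cases h : E.par i.1 = i.1 ∨ R.P (E.par i.1) i.2 = 0
  · simp only [h, if_true]
    exact R.P_sum _
  · simp only [h, if_false]
    rw [not_or] at h
    rw [← sum_div, R.Q_left _ h.1, div_self h.2]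

omit [DecidableEq O] in
theorem P_mul_kk {t : Fin n} (ht : E.par t ≠ t) (o o' : O) :
    R.P (E.par t) o * R.kk (t, o) o' = R.Q t o o' := by
  unfold kk
  by_cases h : R.P (E.par t) o = 0
  · have h1 := R.Q_left t ht o
    rw [h] at h1
    rw [h, zero_mul, (sum_eq_zero_iff_of_nonneg fun o' _ => R.Q_nonneg t o o').1 h1 o' (mem_univ _)]
  · rw [if_neg (by simp [ht, h])]
    field_simp

/-- the law of the random maps -/
noncomputable def W (ξ : Fin n × O → O) : ℝ := ∏ j, R.kk j (ξ j)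

theorem W_nonneg (ξ : Fin n × O → O) : 0 ≤ R.W ξ := prod_nonneg fun _ _ => R.kk_nonneg _ _

theorem W_sum : ∑ ξ, R.W ξ = 1 := sum_prod_one _ R.kk_sum

/-- the family does not depend on the maps of the nodes up to `t` -/
def Ind {γ : Type} (t : Fin n) (h : O → (Fin n × O → O) → γ) : Prop :=
  ∀ o ξ s o1 b, s ≤ t → h o (update ξ (s, o1) b) = h o ξ

omit [Fintype O] in
theorem Ind.up {γ : Type} {t t' : Fin n} (ht : t' < t) {h : O → (Fin n × O → O) → γ}
    (hh : Ind t h) : Ind t' fun o ξ => h (ξ (t, o)) ξ := by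
  intro o ξ s o1 b hs
  have h1 : ((t, o) : Fin n × O) ≠ (s, o1) := fun e => by
    have := congrArg Prod.fst e
    simp only at this
    omega
  simp only [update_of_ne h1]
  exact hh _ _ _ _ _ (hs.trans ht.le)

theorem resample_ind {t : Fin n} {c : O → (Fin n × O → O) → ℝ} (hc : Ind t c) (o : O) :
    ∑ ξ, R.W ξ * c (ξ (t, o)) ξ = ∑ ξ, R.W ξ * ∑ o', R.kk (t, o) o' * c o' ξ := by
  unfold W
  rw [resample R.kk R.kk_sum (t, o)]
  refine sum_congr rfl fun ξ _ => ?_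
  congr 1
  refine sum_congr rfl fun o' _ => ?_
  rw [update_self, hc _ _ _ _ _ le_rfl]

/-- the annealed mean at a node -/
noncomputable def AA (t : Fin n) (u : O → Fin n → ℝ)
    (h : O → (Fin n × O → O) → (Fin n → Bool) → ℝ) : ℝ :=
  ∑ o, R.P t o * ∑ ξ, R.W ξ * Ex (lw R.K (u o)) (h o ξ)

/-- consistency of the annealed means -/
theorem AA_step {t : Fin n} (ht : E.par t ≠ t) {u u' : O → Fin n → ℝ}
    (hce : ∀ o', ∀ a ∈ E.A t, ∑ o, R.Q t o o' * u o a = R.P t o' * u' o' a)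
    (hord : ∀ o', ∀ a ∈ E.A t, ∀ b ∈ E.A t,
      (∀ o, 0 < R.Q t o o' → u o a ≤ u o b) ∨ (∀ o, 0 < R.Q t o o' → u o b ≤ u o a))
    (hb : ∀ o, ∀ a ∈ E.A t, |u o a| ≤ R.K)
    {h : O → (Fin n × O → O) → (Fin n → Bool) → ℝ}
    (hd : ∀ o ξ, DepOn (E.A t : Set (Fin n)) (h o ξ)) (hi : Ind t h) :
    R.AA (E.par t) u (fun o ξ => h (ξ (t, o)) ξ) = R.AA t u' h := by
  unfold AA
  have h1 : ∀ o, R.P (E.par t) o * ∑ ξ, R.W ξ * Ex (lw R.K (u o)) (h (ξ (t, o)) ξ) =
      ∑ ξ, ∑ o', R.W ξ * (R.Q t o o' * Ex (lw R.K (u o)) (h o' ξ)) := by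
    intro o
    rw [R.resample_ind (c := fun o' ξ => Ex (lw R.K (u o)) (h o' ξ))
      (fun o' ξ s o1 b hs => by simp only [hi o' ξ s o1 b hs]) o, mul_sum]
    refine sum_congr rfl fun ξ _ => ?_
    rw [mul_sum, mul_sum]
    refine sum_congr rfl fun o' _ => ?_
    rw [← R.P_mul_kk ht]
    ring
  simp only [h1, mul_sum]
  rw [sum_comm, sum_comm (s := (univ : Finset O)) (t := (univ : Finset (Fin n × O → O)))]
  refine sum_congr rfl fun ξ _ => ?_
  rw [sum_comm]
  refine sum_congr rfl fun o' _ => ?_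
  have h2 := Ex_lw_avg (K := R.K) (fun o => R.Q t o o') (fun o => R.Q_nonneg t o o') u (u' o')
    (hd o' ξ) (fun a ha => by rw [hce o' a ha, R.Q_right t ht]) (hord o') hb
  rw [← mul_sum, h2, R.Q_right t ht]
  ring

/-- the environment given by the random maps -/
noncomputable def om (ξ : Fin n × O → O) (t : Fin n) : O :=
  if _h : E.par t < t then ξ (t, om ξ (E.par t)) else ξ (t, R.o0)
termination_by t

omit [DecidableEq O] in
theorem om_step (ξ : Fin n × O → O) {t : Fin n} (ht : E.par t ≠ t) :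
    R.om ξ t = ξ (t, R.om ξ (E.par t)) := by
  rw [om, dif_pos (lt_of_le_of_ne (E.par_le t) ht)]

omit [DecidableEq O] in
theorem om_root (ξ : Fin n × O → O) {t : Fin n} (ht : E.par t = t) :
    R.om ξ t = ξ (t, R.o0) := by
  rw [om, dif_neg (by rw [ht]; exact lt_irrefl _)]

/-- the kernels in a fixed environment -/
noncomputable def KQ (ω : Fin n → O) : Fin n → (Fin n → Bool) → Bool → ℝ :=
  KK E fun t => lw R.K (R.g t (ω t))

omit [DecidableEq O] in
theorem KQ_ker (ω : Fin n → O) : Ker E.A (R.KQ ω) := KK_ker fun _ => lw_isLaw R.K_pos _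

/-- conditional mean over the new vertex -/
noncomputable def SS (t : Fin n) (o : O) (h : (Fin n → Bool) → ℝ) : (Fin n → Bool) → ℝ :=
  Sop (R.KQ fun _ => o) t h

omit [DecidableEq O] in
theorem KQ_apply (ω : Fin n → O) (t : Fin n) :
    R.KQ ω t = Kk (E.A t) (lw R.K (R.g t (ω t))) t := rfl

omit [DecidableEq O] in
theorem Sop_KQ (ω : Fin n → O) (t : Fin n) (h : (Fin n → Bool) → ℝ) :
    Sop (R.KQ ω) t h = R.SS t (ω t) h := by
  funext X
  unfold SS Sop
  rw [KQ_apply, KQ_apply]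

theorem dep_ins {t : Fin n} {h : (Fin n → Bool) → ℝ} (hh : DepOn (E.B t : Set (Fin n)) h) :
    DepOn (insert t (E.A t : Set (Fin n))) h := by
  refine hh.mono ?_
  rw [Elim.B, Finset.coe_insert]

omit [DecidableEq O] in
theorem SS_dep (t : Fin n) (o : O) {h : (Fin n → Bool) → ℝ} (hh : DepOn (E.B t : Set (Fin n)) h) :
    DepOn (E.A t : Set (Fin n)) (R.SS t o h) := Sop_dep (R.KQ_ker _) subset_rfl (dep_ins hh)

omit [DecidableEq O] in
theorem Ex_SS (t : Fin n) (o : O) {h : (Fin n → Bool) → ℝ} (hh : DepOn (E.B t : Set (Fin n)) h) :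
    Ex (lw R.K (R.g t o)) (R.SS t o h) = Ex (lw R.K (R.g t o)) h :=
  Ex_Sop (K := R.KQ fun _ => o) (R.KQ_apply _ t) (lw_isLaw R.K_pos _).nonneg (dep_ins hh)

/-- the mean for the global law -/
noncomputable def GM (Φ : (Fin n × O → O) → (Fin n → Bool) → ℝ) : ℝ :=
  ∑ ξ, R.W ξ * PM (R.KQ (R.om ξ)) (Φ ξ)

/-- **The marginals of the global law.** -/
theorem GM_bag (t : Fin n) {h : O → (Fin n × O → O) → (Fin n → Bool) → ℝ}
    (hd : ∀ o ξ, DepOn (E.B t : Set (Fin n)) (h o ξ)) (hi : Ind t h) :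
    R.GM (fun ξ => h (R.om ξ t) ξ) = R.AA t (R.g t) h := by
  induction t using WellFoundedLT.induction generalizing h with
  | ind t ih =>
    set h1 : O → (Fin n × O → O) → (Fin n → Bool) → ℝ := fun o ξ => R.SS t o (h o ξ) with hh1
    have d1 : ∀ o ξ, DepOn (E.A t : Set (Fin n)) (h1 o ξ) := fun o ξ => R.SS_dep t o (hd o ξ)
    have i1 : Ind t h1 := fun o ξ s o1 b hs => by simp only [hh1, hi o ξ s o1 b hs]
    have e1 : R.GM (fun ξ => h (R.om ξ t) ξ) = R.GM fun ξ => h1 (R.om ξ t) ξ := by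
      unfold GM
      refine sum_congr rfl fun ξ _ => ?_
      simp only [hh1]
      have h2 := PM_key (R.KQ_ker (R.om ξ)) (t := t) (F := fun _ => 1) (fun _ _ _ => rfl)
        (hd (R.om ξ t) ξ)
      simp only [one_mul] at h2
      rw [h2, ← R.Sop_KQ]
    have e2 : R.AA t (R.g t) h1 = R.AA t (R.g t) h := by
      unfold AA
      simp only [hh1, R.Ex_SS t _ (hd _ _)]
    rw [e1, ← e2]
    by_cases hr : E.par t = t
    · have hA := E.root t hr
      have hc : ∀ o ξ, h1 o ξ = fun _ => h1 o ξ fun _ => false := by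
        intro o ξ
        funext X
        refine d1 o ξ _ _ fun w hw => ?_
        rw [hA] at hw
        simp at hw
      unfold GM AA
      have e3 : ∀ ξ, PM (R.KQ (R.om ξ)) (h1 (R.om ξ t) ξ) = h1 (ξ (t, R.o0)) ξ fun _ => false := by
        intro ξ
        rw [hc, PM_const (R.KQ_ker _), R.om_root ξ hr]
      have e4 : ∀ o ξ, Ex (lw R.K (R.g t o)) (h1 o ξ) = h1 o ξ fun _ => false := by
        intro o ξ
        rw [hc, Ex_const (lw_isLaw R.K_pos _)]
      simp only [e3, e4]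
      rw [R.resample_ind (c := fun o ξ => h1 o ξ fun _ => false)
        (fun o ξ s o1 b hs => by simp only [i1 o ξ s o1 b hs])]
      simp only [mul_sum]
      rw [sum_comm]
      refine sum_congr rfl fun o _ => sum_congr rfl fun ξ _ => ?_
      have : R.kk (t, R.o0) o = R.P t o := if_pos (Or.inl hr)
      rw [this]
      ring
    · have hlt : E.par t < t := lt_of_le_of_ne (E.par_le t) hr
      rw [← R.AA_step hr (R.ce t hr) (R.ord t hr) (fun o a _ => R.bd _ o a) d1 i1,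
        ← ih _ hlt (fun o ξ => (d1 _ ξ).mono (Finset.coe_subset.2 (E.sub t))) (i1.up hlt)]
      simp only [R.om_step _ hr]

end Env

end Vale.Agent.N235Y
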