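import Vale.Agent.N235Y.Path
import Vale.Agent.P235.R2.H483U.Grid

/-!
P235 (helper77): from the process to the random cut, with the constant `CM (k + 1)`.
-/

namespace Vale.Agent.N235Y

open Finset Vale.Agent.P235 Vale.Agent.P235.H684 Vale.Agent.P235.H263

variable {n k : ℕ} {A : Fin n → Finset (Fin n)} {d : Fin n → Fin n → ℝ}

/-- the end of the proof, for a pseudometric -/
theorem end_abs (hn : 0 < n) (hA : IsElim k A) (hd : IsSep A d) {κ C : ℝ} (hκ : 0 < κ)
    (hκ1 : κ ≤ 1) (hC : 0 < C) {ρ : Fin n → Fin n → ℝ} (hρ0 : ∀ i, ρ i i = 0)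
    (hρs : ∀ i j, ρ i j = ρ j i) (hρt : ∀ i j l, ρ i l ≤ ρ i j + ρ j l)
    (hρb : ∀ t, ∀ p ∈ (toElim hA).B t, ∀ p' ∈ (toElim hA).B t,
      κ * d p p' ≤ ρ p p' ∧ ρ p p' ≤ d p p')
    (hfar : ∀ (q : ℕ → Fin n) (N : ℕ), Path (toElim hA) q N → ∀ v ∈ (toElim hA).Out (q 1),
      ∀ r : ℝ, (∀ a ∈ (toElim hA).B (q 0), r ≤ d (q N) a) → r ≤ C * ρ (q N) v) (x y : Fin n) :
    min (κ / 2) (κ / 8 / C) * d x y ≤ ρ x y := by
  have hle' : ∀ (m : ℕ) (i j : Fin n), (i : ℕ) < m → (j : ℕ) < m → ρ i j ≤ d i j := by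
    intro m
    induction m with
    | zero => intro i j hi; omega
    | succ m ih =>
      have key : ∀ i j : Fin n, (i : ℕ) < m + 1 → j < i → ρ i j ≤ d i j := by
        intro i j hi hji
        obtain ⟨a, ha, h1⟩ := hd.sep i i j (H263.Sub.refl i) fun h =>
          absurd (hA.sub_le h) (not_le.2 hji)
        have hai : a < i := hA.lt i a ha
        have h2 : ρ i a ≤ d i a := (hρb i i (Finset.mem_insert_self _ _) a
          (Finset.mem_insert_of_mem ha)).2
        have h3 : ρ a j ≤ d a j := ih a j (by rw [Fin.lt_def] at hai; omega)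
          (by rw [Fin.lt_def] at hji; omega)
        have h4 := hρt i a j
        linarith
      intro i j hi hj
      rcases lt_trichotomy i j with h | h | h
      · rw [hρs, hd.symm]
        exact key j i hj h
      · rw [h, hρ0, hd.self]
      · exact key i j hi h
  have hle : ∀ i j : Fin n, ρ i j ≤ d i j := fun i j => hle' n i j i.2 j.2
  have hd0 := hd.nonneg x y
  have hroot : ∀ v : Fin n, (toElim hA).Desc ⟨0, hn⟩ v := by
    intro v
    induction v using WellFoundedLT.induction with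
    | ind v ih =>
      by_cases hv : (v : ℕ) = 0
      · have : v = ⟨0, hn⟩ := Fin.ext hv
        rw [this]
        exact Elim.Desc.refl _ _
      · exact Elim.Desc.par (ih _ (hA.par_lt (Nat.pos_of_ne_zero hv)))
  obtain ⟨t, hx1, hx2, hx3, hx4⟩ := exists_path (hroot x) (hroot y)
  obtain ⟨t', hy1, hy2, hy3, hy4⟩ := exists_path (hroot y) (hroot x)
  have htt : t' = t := le_antisymm (hx3 t' hy2 hy1) (hy3 t hx2 hx1)
  rw [htt] at hy4
  have far : ∀ u v : Fin n, ρ u v = ρ x y →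
      (u = t ∨ ∃ (q : ℕ → Fin n) (N : ℕ), Path (toElim hA) q N ∧ q 0 = t ∧ q N = u ∧
        v ∈ (toElim hA).Out (q 1)) →
      (∀ a ∈ (toElim hA).B t, κ / 8 * d x y ≤ d u a) →
      min (κ / 2) (κ / 8 / C) * d x y ≤ ρ x y := by
    intro u v huv hor hf
    rcases hor with h | ⟨q, N, hq, hq0, hqN, hv⟩
    · have h1 := hf t (Finset.mem_insert_self _ _)
      rw [h, hd.self] at h1
      have h2 : d x y ≤ 0 := by
        by_contra hcon
        have : 0 < κ / 8 * d x y := mul_pos (by linarith) (not_le.1 hcon)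
        linarith
      have h3 := hρt x y x
      rw [hρ0, hρs y x] at h3
      rw [le_antisymm h2 hd0, mul_zero]
      linarith
    · have h4 := hfar q N hq v hv (κ / 8 * d x y) (by rw [hq0, hqN]; exact hf)
      rw [hqN, huv] at h4
      refine (mul_le_mul_of_nonneg_right (min_le_right _ _) hd0).trans ?_
      rw [div_mul_eq_mul_div, div_le_iff₀ hC]
      linarith
  by_cases hfx : ∀ a ∈ (toElim hA).B t, κ / 8 * d x y ≤ d x a
  · exact far x y rfl hx4 hfx
  by_cases hfy : ∀ a ∈ (toElim hA).B t, κ / 8 * d x y ≤ d y a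
  · exact far y x (hρs y x) hy4 hfy
  simp only [not_forall, not_le] at hfx hfy
  obtain ⟨a, ha, hxa⟩ := hfx
  obtain ⟨b, hb, hyb⟩ := hfy
  refine (mul_le_mul_of_nonneg_right (min_le_left _ _) hd0).trans ?_
  have h1 := (hρb t a ha b hb).1
  have h2 := hle x a
  have h3 := hle y b
  have h4 := hρt a x b
  have h5 := hρt x y b
  have h6 := hd.tri x a y
  have h7 := hd.tri a b y
  rw [hρs a x] at h4
  rw [hd.symm b y] at h7
  have h8 : κ * (d x y - 2 * (κ / 8 * d x y)) ≤ κ * d a b :=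
    mul_le_mul_of_nonneg_left (by linarith) hκ.le
  have h9 : 0 ≤ (1 - κ) * (κ * d x y) := mul_nonneg (by linarith) (mul_nonneg hκ.le hd0)
  have h10 : 0 ≤ κ * d x y := mul_nonneg hκ.le hd0
  nlinarith

variable {κ ε : ℝ}

theorem nonroot (hA : IsElim k A) {t : Fin n} (ht : (toElim hA).par t ≠ t) :
    ¬ ¬ (A t).Nonempty := fun h => ht (par_of_empty h)

/-- the environment of a process -/
noncomputable def envOf (hA : IsElim k A)
    (R : H265.Proc (Fin n) d (par A) (fun t => ¬ (A t).Nonempty) A κ ε) (o0 : R.O) {K : ℝ}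
    (hK : 0 < K) (hb : ∀ t o p, |R.g t o p| ≤ K) : Env (toElim hA) R.O where
  P := R.P
  Q := R.Q
  g := R.g
  K := K
  o0 := o0
  K_pos := hK
  P_nonneg := R.P_nonneg
  P_sum := R.P_sum
  Q_nonneg := R.Q_nonneg
  Q_left := fun t ht => R.Q_left t (nonroot hA ht)
  Q_right := fun t ht => R.Q_right t (nonroot hA ht)
  ce := fun t ht o' a ha => R.ce t (nonroot hA ht) a ha o'
  ord := fun t ht o' a ha b hb => (le_total (R.g t o' a) (R.g t o' b)).imp
    (fun h o ho => (R.ord t (nonroot hA ht) o o' ho.ne' a ha b hb).mpr h)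
    (fun h o ho => (R.ord t (nonroot hA ht) o o' ho.ne' b hb a ha).mpr h)
  bd := hb

section env

variable {E : Elim n} {O : Type} [Fintype O] [DecidableEq O] (R : Env E O)

theorem GM_dif {t p p' : Fin n} (hp : p ∈ E.B t) (hp' : p' ∈ E.B t) :
    2 * R.K * R.GM (fun _ => dif p p') = ∑ o, R.P t o * |R.g t o p - R.g t o p'| := by
  have h := R.GM_bag t (h := fun _ _ => dif p p')
    (fun _ _ => dif_dep p p' (Finset.mem_coe.2 hp) (Finset.mem_coe.2 hp')) fun _ _ _ _ _ _ => rfl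
  rw [h]
  unfold Env.AA
  rw [mul_sum]
  refine sum_congr rfl fun o _ => ?_
  rw [← sum_mul, R.W_sum, Ex_lw_dif (R.bd t o p) (R.bd t o p')]
  have := R.K_pos
  field_simp

/-- the comparison along a path from the top -/
theorem far_env (hk : ∀ t, (E.A t).card ≤ k) {q : ℕ → Fin n} {N : ℕ} (hq : Path E q N)
    {D : ℕ → O → Fin n → ℝ}
    (hce : ∀ i < N, ∀ o', ∀ a ∈ E.A (q (i + 1)),
      ∑ o, R.Q (q (i + 1)) o o' * D i o a = R.P (q (i + 1)) o' * D (i + 1) o' a)
    (hl : ∀ i ≤ N, ∀ o, ∀ a ∈ E.B (q i), ∀ b ∈ E.B (q i),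
      |D i o a - D i o b| ≤ |R.g (q i) o a - R.g (q i) o b|)
    (hb : ∀ i ≤ N, ∀ o, ∀ a ∈ E.B (q i), |R.g (q i) o a| + |D i o a| ≤ R.K)
    (h0 : ∀ o a, D 0 o a = 0) {v : Fin n} (hv : v ∈ E.Out (q 1)) :
    ∑ o, R.P (q N) o * D N o (q N) ≤ CM (k + 1) * (2 * R.K * R.GM fun _ => dif (q N) v) := by
  have e : ∀ j < N, N - j = N - (j + 1) + 1 := fun j hj => by omega
  have hp : ∀ j < N, E.par (q (N - j)) = q (N - (j + 1)) := fun j hj => by
    rw [e j hj]
    exact hq.par _ (by omega)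
  have hlt : ∀ j < N, q (N - (j + 1)) < q (N - j) := fun j hj => by
    refine lt_of_le_of_ne (hp j hj ▸ E.par_le _) ?_
    rw [e j hj]
    exact hq.ne _ (by omega)
  have h1 := R.path_energy (p := fun j => q (N - j)) (N := N) (D := fun j => D (N - j)) hk hp hlt
    (fun j hj => by
      have h := hce (N - (j + 1)) (by omega)
      rw [← e j hj] at h
      exact h)
    (fun j _ => hl _ (Nat.sub_le _ _)) (fun j _ => hb _ (Nat.sub_le _ _))
    (fun o a _ => by simp only [Nat.sub_self, h0])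
  have h2 := R.energy_le (p := fun j => q (N - j)) (N := N) hp hlt (y := v)
    fun j hj => hq.out_sub (by omega) (Nat.sub_le _ _) hv
  refine h1.trans (mul_le_mul_of_nonneg_left (mul_le_mul_of_nonneg_left h2 ?_) (CM_pos _).le)
  linarith [R.K_pos]

/-- the random cut -/
theorem cut_env : ∃ (Ω : Type) (_ : Fintype Ω) (P : Ω → ℝ) (X : Ω → Fin n → Bool),
    (∀ σ, 0 ≤ P σ) ∧ ∀ i j, ∑ σ, P σ * (if X σ i = X σ j then 0 else 1) =
      2 * R.K * R.GM fun _ => dif i j := by
  refine ⟨(Fin n × O → O) × (Fin n → Bool), inferInstance,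
    fun σ => 2 * R.K * (R.W σ.1 * PW (R.KQ (R.om σ.1)) σ.2), fun σ => σ.2, fun σ => ?_,
    fun i j => ?_⟩
  · exact mul_nonneg (by linarith [R.K_pos])
      (mul_nonneg (R.W_nonneg _) ((PW_isLaw (R.KQ_ker _)).nonneg _))
  · unfold Env.GM
    rw [Fintype.sum_prod_type, mul_sum]
    refine sum_congr rfl fun ξ _ => ?_
    rw [PM_eq_Ex]
    unfold Ex dif
    rw [mul_sum, mul_sum]
    exact sum_congr rfl fun _ _ => by ring

theorem GM_self (i : Fin n) : R.GM (fun _ => dif i i) = 0 := by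
  have e : (dif i i : (Fin n → Bool) → ℝ) = fun _ => 0 := funext (dif_self i)
  unfold Env.GM
  simp only [e, PM_const (R.KQ_ker _), mul_zero, sum_const_zero]

theorem GM_tri (i j l : Fin n) :
    R.GM (fun _ => dif i l) ≤ R.GM (fun _ => dif i j) + R.GM fun _ => dif j l := by
  unfold Env.GM
  rw [← sum_add_distrib]
  refine sum_le_sum fun ξ _ => ?_
  rw [← mul_add, ← PM_add]
  exact mul_le_mul_of_nonneg_left (PM_mono (R.KQ_ker _) (dif_tri i j l)) (R.W_nonneg ξ)

end env

end Vale.Agent.N235Y
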