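import Mathlib.Analysis.SpecialFunctions.Pow.Real
import Mathlib.Algebra.Order.BigOperators.Group.Finset
import Mathlib.Tactic

/-!
P235 (helper77): an online rule for thresholds. The state is a sequence of bits which describes
nested intervals; the rule looks only at the current finite set of values.
-/

namespace Vale.Agent.N235Y

open Finset

/-- radii of the nested intervals -/
noncomputable def rad (l : ℕ) : ℝ := 1 / 2 * (1 / 4) ^ l

/-- centres of the nested intervals -/
noncomputable def ctr (s : ℕ → Bool) : ℕ → ℝ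
  | 0 => 1 / 2
  | l + 1 => ctr s l + (if s l = true then rad l / 2 else -(rad l / 2))

/-- the stored credit -/
noncomputable def bump (s : ℕ → Bool) (l : ℕ) (y : ℝ) : ℝ :=
  max 0 ((2 * rad (l + 1)) ^ 2 - (y - ctr s (l + 1)) ^ 2)

theorem rad_pos (l : ℕ) : 0 < rad l := by unfold rad; positivity

theorem rad_succ (l : ℕ) : rad (l + 1) = rad l / 4 := by unfold rad; rw [pow_succ]; ring

theorem ctr_congr {s s' : ℕ → Bool} : ∀ l, (∀ i < l, s i = s' i) → ctr s l = ctr s' l
  | 0, _ => rfl
  | l + 1, h => by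
    unfold ctr
    rw [ctr_congr l fun i hi => h i (by omega), h l (by omega)]

theorem ctr_step (s : ℕ → Bool) (l : ℕ) : |ctr s (l + 1) - ctr s l| = rad l / 2 := by
  have h := rad_pos l
  have e : ctr s (l + 1) - ctr s l = if s l = true then rad l / 2 else -(rad l / 2) := by
    simp only [ctr]; ring
  rw [e]
  split_ifs
  · exact abs_of_pos (by linarith)
  · rw [abs_neg]; exact abs_of_pos (by linarith)

theorem nest (s : ℕ → Bool) {l m : ℕ} (h : l ≤ m) : |ctr s m - ctr s l| + rad m ≤ rad l := by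
  induction m, h using Nat.le_induction with
  | base => simp
  | succ m _ ih =>
    have h1 := abs_sub_le (ctr s (m + 1)) (ctr s m) (ctr s l)
    have h2 := rad_pos m
    rw [ctr_step] at h1
    rw [rad_succ]
    linarith

theorem nest2 (s : ℕ → Bool) {l m : ℕ} (h : l ≤ m) :
    |ctr s (m + 1) - ctr s l| + 2 * rad (m + 1) ≤ rad l := by
  have h1 := abs_sub_le (ctr s (m + 1)) (ctr s m) (ctr s l)
  have h2 := nest s h
  rw [ctr_step] at h1
  rw [rad_succ]
  linarith

theorem bump_nonneg (s : ℕ → Bool) (l : ℕ) (y : ℝ) : 0 ≤ bump s l y := le_max_left _ _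

theorem bump_eq_zero {s : ℕ → Bool} {l : ℕ} {y : ℝ} (h : 2 * rad (l + 1) ≤ |y - ctr s (l + 1)|) :
    bump s l y = 0 := by
  have h1 := rad_pos (l + 1)
  refine max_eq_left ?_
  have h2 : (2 * rad (l + 1)) ^ 2 ≤ |y - ctr s (l + 1)| ^ 2 := pow_le_pow_left₀ (by linarith) h 2
  rw [sq_abs] at h2
  linarith

/-- the slope of the supporting line -/
noncomputable def slope (s : ℕ → Bool) (l : ℕ) (y : ℝ) : ℝ :=
  if |y - ctr s (l + 1)| < 2 * rad (l + 1) then -2 * (y - ctr s (l + 1)) else 0

theorem bump_support (s : ℕ → Bool) (l : ℕ) (x y : ℝ) :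
    bump s l y - (x - y) ^ 2 + slope s l y * (x - y) ≤ bump s l x := by
  unfold slope
  split_ifs with h
  · have h1 := rad_pos (l + 1)
    have h2 : |y - ctr s (l + 1)| ^ 2 ≤ (2 * rad (l + 1)) ^ 2 :=
      pow_le_pow_left₀ (abs_nonneg _) h.le 2
    rw [sq_abs] at h2
    have h3 : bump s l y = (2 * rad (l + 1)) ^ 2 - (y - ctr s (l + 1)) ^ 2 :=
      max_eq_right (by linarith)
    rw [h3]
    refine le_trans (le_of_eq ?_) (le_max_right _ _)
    ring
  · rw [bump_eq_zero (not_lt.1 h)]
    have := bump_nonneg s l x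
    nlinarith [sq_nonneg (x - y)]

/-- the label of a value -/
noncomputable def lab (θ x : ℝ) : ℝ := if θ ≤ x then 1 else 0

theorem lab_sub_le (θ θ' x y : ℝ) : |lab θ x - lab θ' y| ≤ 1 := by
  unfold lab
  split_ifs <;> norm_num

theorem lab_far {θ θ' x y r : ℝ} (hr : 0 < r)
    (h : (θ + r ≤ y ∧ θ' ≤ y) ∨ (y ≤ θ - r ∧ y < θ')) :
    r ^ 2 * |lab θ x - lab θ' y| ≤ (x - y) ^ 2 := by
  unfold lab
  rcases h with ⟨h1, h2⟩ | ⟨h1, h2⟩
  · rw [if_pos h2]
    split_ifs with h3
    · simp [sq_nonneg]
    · rw [not_le] at h3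
      norm_num
      nlinarith
  · rw [if_neg (not_le.2 h2)]
    split_ifs with h3
    · norm_num
      nlinarith
    · simp [sq_nonneg]

theorem exists_upd (M : ℕ) (s : ℕ → Bool) (V : Finset ℝ) (hV : V.card ≤ M) :
    ∃ s' : ℕ → Bool, ∀ y ∈ V, ∀ x,
      rad M ^ 2 * |lab (ctr s M) x - lab (ctr s' M) y| ≤
        (x - y) ^ 2 + ∑ l ∈ range M, (bump s l y - bump s' l y) := by
  classical
  set cnt : ℕ → ℕ := fun l => (V.filter fun y => |y - ctr s l| < rad l).card with hcnt
  have hrM := rad_pos M
  by_cases h : ∃ l, l < M ∧ M ≤ l + cnt (l + 1)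
  · set l := Nat.find h with hl
    obtain ⟨hlM, hlc⟩ : l < M ∧ M ≤ l + cnt (l + 1) := Nat.find_spec h
    have h1 : cnt l + l ≤ M := by
      rcases Nat.eq_zero_or_pos l with h0 | h0
      · rw [h0]
        exact (card_filter_le _ _).trans hV
      · have h2 := Nat.find_min h (m := l - 1) (by omega)
        have e : l - 1 + 1 = l := by omega
        rw [e] at h2
        omega
    have hin : ∀ y ∈ V, |y - ctr s l| < rad l → |y - ctr s (l + 1)| < rad (l + 1) := by
      have hsub : (V.filter fun y => |y - ctr s (l + 1)| < rad (l + 1)) ⊆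
          V.filter fun y => |y - ctr s l| < rad l := by
        intro y hy
        rw [mem_filter] at hy ⊢
        have h2 := nest s (Nat.le_succ l)
        have h3 := abs_sub_le y (ctr s (l + 1)) (ctr s l)
        exact ⟨hy.1, by linarith [hy.2]⟩
      have heq := eq_of_subset_of_card_le hsub (by
        show cnt l ≤ cnt (l + 1)
        omega)
      intro y hy h2
      have h3 : y ∈ V.filter fun y => |y - ctr s l| < rad l := mem_filter.2 ⟨hy, h2⟩
      rw [← heq] at h3
      exact (mem_filter.1 h3).2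
    set s' : ℕ → Bool := Function.update s l (!s l) with hs'
    have hc : ∀ m ≤ l, ctr s' m = ctr s m := fun m hm =>
      ctr_congr m fun i hi => Function.update_of_ne (by omega) _ _
    have hr := rad_pos l
    have hrs := rad_succ l
    have hfl : |ctr s' (l + 1) - ctr s (l + 1)| = rad l := by
      have e1 : s' l = !s l := Function.update_self _ _ _
      simp only [ctr]
      rw [hc l le_rfl, e1]
      cases s l
      · simp only [Bool.not_false, if_true, Bool.false_eq_true, if_false]
        rw [abs_of_pos (by linarith)]; ring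
      · simp only [Bool.not_true, if_true, Bool.false_eq_true, if_false]
        rw [abs_of_neg (by linarith)]; ring
    have hE : ∀ y ∈ V, 2 * rad (l + 1) ≤ |y - ctr s' (l + 1)| := by
      intro y hy
      by_contra h2
      rw [not_le] at h2
      have h3 := abs_sub_le y (ctr s' (l + 1)) (ctr s' l)
      rw [ctr_step, hc l le_rfl] at h3
      have h4 := hin y hy (by linarith)
      have h5 := abs_sub_le (ctr s' (l + 1)) y (ctr s (l + 1))
      rw [abs_sub_comm (ctr s' (l + 1)) y] at h5
      linarith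
    refine ⟨s', fun y hy x => ?_⟩
    have hz : ∀ m, l ≤ m → bump s' m y = 0 := by
      intro m hm
      refine bump_eq_zero ?_
      rcases hm.eq_or_lt with e | e
      · rw [← e]; exact hE y hy
      · have h2 := nest2 s' (show l + 1 ≤ m from e)
        have h3 := abs_sub_le y (ctr s' (m + 1)) (ctr s' (l + 1))
        have h4 := hE y hy
        have h5 := rad_pos (l + 1)
        linarith
    have hsum : bump s l y ≤ ∑ m ∈ range M, (bump s m y - bump s' m y) := by
      have h2 := single_le_sum (f := fun m => bump s m y - bump s' m y) (s := range M)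
        (fun m _ => by
          rcases lt_or_ge m l with h3 | h3
          · unfold bump
            rw [hc (m + 1) h3, sub_self]
          · rw [hz m h3, sub_zero]
            exact bump_nonneg _ _ _) (mem_range.2 hlM)
      rwa [hz l le_rfl, sub_zero] at h2
    have hb0 := bump_nonneg s l y
    by_cases h2 : |y - ctr s l| < rad l
    · have h3 := hin y hy h2
      have h4 : |y - ctr s (l + 1)| ^ 2 ≤ rad (l + 1) ^ 2 := pow_le_pow_left₀ (abs_nonneg _) h3.le 2
      rw [sq_abs] at h4
      have h5 : (2 * rad (l + 1)) ^ 2 - (y - ctr s (l + 1)) ^ 2 ≤ bump s l y := le_max_right _ _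
      have h6 : rad M ≤ rad (l + 1) := by
        have := nest s (show l + 1 ≤ M from hlM)
        linarith [abs_nonneg (ctr s M - ctr s (l + 1))]
      have h7 : rad M ^ 2 ≤ rad (l + 1) ^ 2 := pow_le_pow_left₀ hrM.le h6 2
      have h8 := mul_le_mul_of_nonneg_left (lab_sub_le (ctr s M) (ctr s' M) x y) (sq_nonneg (rad M))
      nlinarith [sq_nonneg (x - y), sq_nonneg (rad (l + 1))]
    · rw [not_lt] at h2
      have h3 := nest s hlM.le
      have h4 := nest s' hlM.le
      rw [hc l le_rfl] at h4
      have h5 := abs_le.1 (le_refl |ctr s M - ctr s l|)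
      have h6 := abs_le.1 (le_refl |ctr s' M - ctr s l|)
      have h7 := lab_far (θ := ctr s M) (θ' := ctr s' M) (x := x) (y := y) hrM (by
        rcases le_abs'.1 h2 with h8 | h8
        · right; constructor <;> linarith [h5.1, h6.1]
        · left; constructor <;> linarith [h5.2, h6.2])
      linarith
  · refine ⟨s, fun y hy x => ?_⟩
    have h1 : rad M ≤ |y - ctr s M| := by
      by_contra h2
      rw [not_le] at h2
      have h3 : 0 < cnt M := card_pos.2 ⟨y, mem_filter.2 ⟨hy, h2⟩⟩
      have h4 : 0 < V.card := card_pos.2 ⟨y, hy⟩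
      refine h ⟨M - 1, by omega, ?_⟩
      have e : M - 1 + 1 = M := by omega
      rw [e]
      omega
    have h2 := lab_far (θ := ctr s M) (θ' := ctr s M) (x := x) (y := y) hrM (by
      rcases le_abs'.1 h1 with h8 | h8
      · right; constructor <;> linarith
      · left; constructor <;> linarith)
    simpa using h2

/-- the constant -/
noncomputable def CM (M : ℕ) : ℝ := 4 * (M + 1) * 16 ^ M

theorem CM_pos (M : ℕ) : 0 < CM M := by unfold CM; positivity

/-- **The online rule.** -/
theorem machine (M : ℕ) : ∃ (upd : (ℕ → Bool) → Finset ℝ → ℕ → Bool) (θ : (ℕ → Bool) → ℝ)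
    (F lam : (ℕ → Bool) → ℝ → ℝ),
    (∀ s, 0 < θ s ∧ θ s ≤ 1) ∧ (∀ s, F s 0 = 0 ∧ F s 1 = 0) ∧
    (∀ s y, F s y ≤ CM M * (y * (1 - y))) ∧
    ∀ s V, V.card ≤ M → ∀ y ∈ V, ∀ x,
      |lab (θ s) x - lab (θ (upd s V)) y| ≤ F (upd s V) y - F s x + lam s y * (x - y) := by
  classical
  have h := fun s (V : Finset ℝ) => (show ∃ s' : ℕ → Bool, V.card ≤ M → ∀ y ∈ V, ∀ x,
      rad M ^ 2 * |lab (ctr s M) x - lab (ctr s' M) y| ≤
        (x - y) ^ 2 + ∑ l ∈ range M, (bump s l y - bump s' l y) from by
    by_cases hV : V.card ≤ M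
    · obtain ⟨s', hs'⟩ := exists_upd M s V hV
      exact ⟨s', fun _ => hs'⟩
    · exact ⟨s, fun h => absurd h hV⟩)
  choose upd hupd using h
  have hc : (4 * 16 ^ M : ℝ) * rad M ^ 2 = 1 := by
    unfold rad
    rw [mul_pow, ← pow_mul, mul_comm M 2, pow_mul]
    have : (16 : ℝ) ^ M * ((1 / 4) ^ 2) ^ M = 1 := by rw [← mul_pow]; norm_num
    nlinarith
  have hc0 : (0 : ℝ) < 4 * 16 ^ M := by positivity
  have hb : ∀ s (y : ℝ), y = 0 ∨ y = 1 → ∑ l ∈ range M, bump s l y = 0 := by
    intro s y hy
    refine sum_eq_zero fun l _ => bump_eq_zero ?_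
    have h1 := nest2 s (Nat.zero_le l)
    have h2 := abs_sub_le y (ctr s (l + 1)) (ctr s 0)
    have h3 : |y - ctr s 0| = 1 / 2 := by
      rcases hy with e | e <;> rw [e] <;> simp only [ctr] <;> norm_num [abs_of_pos]
    have h4 : rad 0 = 1 / 2 := by unfold rad; norm_num
    linarith
  refine ⟨upd, fun s => ctr s M,
    fun s y => 4 * 16 ^ M * ((M + 1) * (y * (1 - y)) - ∑ l ∈ range M, bump s l y),
    fun s y => -(4 * 16 ^ M) * ((M + 1) * (2 * y - 1) + ∑ l ∈ range M, slope s l y),
    fun s => ?_, fun s => ⟨?_, ?_⟩, fun s y => ?_, fun s V hV y hy x => ?_⟩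
  · have h1 := nest s (Nat.zero_le M)
    have h4 : rad 0 = 1 / 2 := by unfold rad; norm_num
    have h5 : ctr s 0 = 1 / 2 := rfl
    have h6 := abs_le.1 (le_refl |ctr s M - ctr s 0|)
    have h7 := rad_pos M
    constructor <;> linarith [h6.1, h6.2]
  · simp [hb s 0 (Or.inl rfl)]
  · simp [hb s 1 (Or.inr rfl)]
  · have h1 : 0 ≤ ∑ l ∈ range M, bump s l y := sum_nonneg fun l _ => bump_nonneg _ _ _
    unfold CM
    nlinarith
  · have h1 := mul_le_mul_of_nonneg_left (hupd s V hV y hy x) hc0.le
    rw [← mul_assoc, hc, one_mul, sum_sub_distrib] at h1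
    refine h1.trans ?_
    have h2 := sum_le_sum fun l (_ : l ∈ range M) => bump_support s l x y
    rw [sum_add_distrib, sum_sub_distrib, sum_const, card_range, nsmul_eq_mul, ← sum_mul] at h2
    have h3 := mul_le_mul_of_nonneg_left h2 hc0.le
    nlinarith

end Vale.Agent.N235Y
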