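import Vale.Agent.N235Y.Env
import Vale.Agent.N235Y.Mach

/-!
P235 (helper77): the comparison along a path in a fixed environment. At each node at most `k + 1`
values occur, and the thresholds depend on the environment below the node only.
-/

namespace Vale.Agent.N235Y

set_option linter.unusedSectionVars false

open Finset Function Vale.Agent.P235 Vale.Agent.P235.H684 Vale.Agent.P235.H485

variable {n : ℕ}

theorem Ex_add (P h h' : (Fin n → Bool) → ℝ) :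
    Ex P (fun X => h X + h' X) = Ex P h + Ex P h' := by
  unfold Ex
  rw [← sum_add_distrib]
  exact sum_congr rfl fun _ _ => by ring

theorem Ex_sub (P h h' : (Fin n → Bool) → ℝ) :
    Ex P (fun X => h X - h' X) = Ex P h - Ex P h' := by
  unfold Ex
  rw [← sum_sub_distrib]
  exact sum_congr rfl fun _ _ => by ring

theorem Ex_smul (P : (Fin n → Bool) → ℝ) (c : ℝ) (h : (Fin n → Bool) → ℝ) :
    Ex P (fun X => c * h X) = c * Ex P h := by
  unfold Ex
  rw [mul_sum]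
  exact sum_congr rfl fun _ _ => by ring

theorem Ex_mono {P h h' : (Fin n → Bool) → ℝ} (hP : IsLaw P) (hh : ∀ X, h X ≤ h' X) :
    Ex P h ≤ Ex P h' := sum_le_sum fun X _ => mul_le_mul_of_nonneg_left (hh X) (hP.nonneg X)

/-- the values of a function of the adhesion on the level cuts of `u` -/
noncomputable def VV (A : Finset (Fin n)) (u : Fin n → ℝ) (Ψ : (Fin n → Bool) → ℝ) : Finset ℝ := by
  classical
  exact insert (Ψ fun _ => false) (A.image fun a => Ψ fun v => decide (u a ≤ u v))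

theorem card_VV (A : Finset (Fin n)) (u : Fin n → ℝ) (Ψ : (Fin n → Bool) → ℝ) :
    (VV A u Ψ).card ≤ A.card + 1 := by
  classical
  unfold VV
  exact (card_insert_le _ _).trans (Nat.succ_le_succ card_image_le)

theorem mem_VV {A : Finset (Fin n)} (u : Fin n → ℝ) {Ψ : (Fin n → Bool) → ℝ}
    (hΨ : DepOn (A : Set (Fin n)) Ψ) (T : ℝ) : Ψ (toB (cut univ u T)) ∈ VV A u Ψ := by
  classical
  unfold VV
  rw [mem_insert, mem_image]
  by_cases h : (A.filter fun a => T ≤ u a).Nonempty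
  · obtain ⟨a, ha, hmin⟩ := exists_min_image _ u h
    rw [mem_filter] at ha
    refine Or.inr ⟨a, ha.1, hΨ _ _ fun v hv => ?_⟩
    simp only [toB, mem_cut, mem_univ, true_and, decide_eq_decide]
    exact ⟨fun h1 => ha.2.trans h1, fun h1 => hmin v (mem_filter.2 ⟨hv, h1⟩)⟩
  · refine Or.inl (hΨ _ _ fun v hv => ?_)
    simp only [toB, mem_cut, mem_univ, true_and, decide_eq_false_iff_not]
    exact fun h1 => h ⟨v, mem_filter.2 ⟨hv, h1⟩⟩

theorem mono_sign {g D : Fin n → ℝ} {a b : Fin n} {s : ℝ} (hs : |s| ≤ 1)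
    (h : |D a - D b| ≤ |g a - g b|) (hab : g a ≤ g b) : g a + s * D a ≤ g b + s * D b := by
  rw [abs_of_nonpos (by linarith : g a - g b ≤ 0)] at h
  have h2 : |s * (D a - D b)| ≤ g b - g a := by
    rw [abs_mul]
    nlinarith [abs_nonneg (D a - D b), abs_nonneg s]
  have h3 := le_of_abs_le h2
  nlinarith

theorem abs_sign {g D K s : ℝ} (hs : |s| ≤ 1) (h : |g| + |D| ≤ K) : |g + s * D| ≤ K := by
  refine (abs_add_le _ _).trans (le_trans ?_ h)
  rw [abs_mul]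
  nlinarith [abs_nonneg D, abs_nonneg s]

/-- the average of the two signs -/
theorem Ex_signs {K : ℝ} {g D : Fin n → ℝ} {B : Finset (Fin n)} {h : (Fin n → Bool) → ℝ}
    (hh : DepOn (B : Set (Fin n)) h) (hl : ∀ a ∈ B, ∀ b ∈ B, |D a - D b| ≤ |g a - g b|)
    (hb : ∀ a ∈ B, |g a| + |D a| ≤ K) :
    Ex (lw K fun v => g v + 1 * D v) h + Ex (lw K fun v => g v + (-1) * D v) h =
      2 * Ex (lw K g) h := by
  have hs : ∀ c : Bool, |(if c then (1 : ℝ) else -1)| ≤ 1 := fun c => by cases c <;> norm_num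
  have h1 := Ex_lw_avg (K := K) (fun _ : Bool => (1 : ℝ)) (fun _ => zero_le_one)
    (fun c v => g v + (if c then 1 else -1) * D v) g hh (fun a _ => by simp; ring)
    (fun a ha b hb' => (le_total (g a) (g b)).imp
      (fun h c _ => mono_sign (hs c) (hl a ha b hb') h)
      (fun h c _ => mono_sign (hs c) (hl b hb' a ha) h))
    (fun c a ha => abs_sign (hs c) (hb a ha))
  simp only [Fintype.sum_bool, one_mul, if_true, Bool.false_eq_true, if_false] at h1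
  simp only [one_mul]
  rw [h1]
  norm_num

namespace Env

variable {E : Elim n} {O : Type} [Fintype O] [DecidableEq O] (R : Env E O)

/-- one step of the comparison -/
theorem one_step {M : ℕ} {upd : (ℕ → Bool) → Finset ℝ → ℕ → Bool} {θ : (ℕ → Bool) → ℝ}
    {F lam : (ℕ → Bool) → ℝ → ℝ}
    (hm : ∀ s V, V.card ≤ M → ∀ y ∈ V, ∀ x,
      |lab (θ s) x - lab (θ (upd s V)) y| ≤ F (upd s V) y - F s x + lam s y * (x - y))
    {t : Fin n} (hM : (E.A t).card + 1 ≤ M) (o : O) {D : Fin n → ℝ}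
    (hl : ∀ a ∈ E.B t, ∀ b ∈ E.B t, |D a - D b| ≤ |R.g t o a - R.g t o b|)
    (hb : ∀ a ∈ E.B t, |R.g t o a| + |D a| ≤ R.K)
    {Φ : (Fin n → Bool) → ℝ} (hΦ : DepOn (E.B t : Set (Fin n)) Φ) (s s' : ℕ → Bool)
    (hs' : s' = upd s (VV (E.A t) (R.g t o) (R.SS t o Φ))) :
    Ex (lw R.K fun v => R.g t o v + 1 * D v) (fun X => lab (θ s) (Φ X)) -
        Ex (lw R.K fun v => R.g t o v + (-1) * D v) (fun X => lab (θ s) (Φ X)) +
        2 * Ex (lw R.K (R.g t o)) (fun X => F s (Φ X)) ≤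
      Ex (lw R.K fun v => R.g t o v + 1 * D v) (fun X => lab (θ s') (R.SS t o Φ X)) -
        Ex (lw R.K fun v => R.g t o v + (-1) * D v) (fun X => lab (θ s') (R.SS t o Φ X)) +
        2 * Ex (lw R.K (R.g t o)) (fun X => F s' (R.SS t o Φ X)) := by
  have hΨ := R.SS_dep t o hΦ
  have hAB : (E.A t : Set (Fin n)) ⊆ (E.B t : Set (Fin n)) :=
    Finset.coe_subset.2 (subset_insert _ _)
  have hz : Ex (lw R.K (R.g t o)) (fun X => lam s (R.SS t o Φ X) * Φ X) =
      Ex (lw R.K (R.g t o)) (fun X => lam s (R.SS t o Φ X) * R.SS t o Φ X) := by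
    rw [← R.Ex_SS t o (((hΨ.comp (lam s)).mono hAB).mul hΦ)]
    congr 1
    refine Sop_mul_left (R.KQ_ker _) t (fun X b => ?_) Φ
    rw [hΨ.update (fun h => lt_irrefl _ (E.lt t t (Finset.mem_coe.1 h)))]
  generalize R.SS t o Φ = Ψ at *
  have h1 := Ex_lw_mono R.K_pos (R.g t o)
    (h := fun X => |lab (θ s) (Φ X) - lab (θ s') (Ψ X)|)
    (h' := fun X => F s' (Ψ X) - F s (Φ X) + (lam s (Ψ X) * Φ X - lam s (Ψ X) * Ψ X))
    (fun T => by
      have h2 := hm s _ ((card_VV _ _ _).trans hM) _ (mem_VV (R.g t o) hΨ T)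
        (Φ (toB (cut univ (R.g t o) T)))
      rw [← hs', mul_sub] at h2
      exact h2)
  rw [Ex_add, Ex_sub, Ex_sub, hz, sub_self, add_zero] at h1
  have h2 := Ex_signs (K := R.K) (h := fun X => |lab (θ s) (Φ X) - lab (θ s') (Ψ X)|)
    (fun X Y hXY => by simp only [hΦ X Y hXY, hΨ.mono hAB X Y hXY]) hl hb
  have h3 := Ex_mono (lw_isLaw R.K_pos fun v => R.g t o v + 1 * D v)
    (h := fun X => lab (θ s) (Φ X) - lab (θ s') (Ψ X)) fun X => le_abs_self _
  have h4 := Ex_mono (lw_isLaw R.K_pos fun v => R.g t o v + (-1) * D v)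
    (h := fun X => lab (θ s') (Ψ X) - lab (θ s) (Φ X))
    (h' := fun X => |lab (θ s) (Φ X) - lab (θ s') (Ψ X)|)
    fun X => by rw [abs_sub_comm]; exact le_abs_self _
  rw [Ex_sub] at h3 h4
  linarith

/-- the conditional probabilities of the last vertex, in a fixed environment -/
noncomputable def Ph (p : ℕ → Fin n) : ℕ → O → (Fin n × O → O) → (Fin n → Bool) → ℝ
  | 0 => fun _ _ => H684.val (p 0)
  | j + 1 => fun o ξ => R.SS (p j) (ξ (p j, o)) (Ph p j (ξ (p j, o)) ξ)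

/-- the states of the online rule -/
noncomputable def St (upd : (ℕ → Bool) → Finset ℝ → ℕ → Bool) (p : ℕ → Fin n) :
    ℕ → O → (Fin n × O → O) → ℕ → Bool
  | 0 => fun _ _ _ => false
  | j + 1 => fun o ξ => upd (St upd p j (ξ (p j, o)) ξ) (VV (E.A (p j)) (R.g (p j) (ξ (p j, o)))
      (R.SS (p j) (ξ (p j, o)) (R.Ph p j (ξ (p j, o)) ξ)))

variable {p : ℕ → Fin n} {N : ℕ}

theorem Ph_dep (hp : ∀ j < N, E.par (p j) = p (j + 1)) :
    ∀ j ≤ N, ∀ o ξ, DepOn (E.B (p j) : Set (Fin n)) (R.Ph p j o ξ)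
  | 0, _, _, _ => (val_dep (p 0)).mono (by
      rw [Set.singleton_subset_iff]
      exact Finset.mem_coe.2 (mem_insert_self _ _))
  | j + 1, hj, o, ξ => by
    refine (R.SS_dep (p j) _ (Ph_dep hp j (by omega) _ ξ)).mono (Finset.coe_subset.2 ?_)
    rw [← hp j hj]
    exact E.sub _

theorem Ph_ind (hlt : ∀ j < N, p (j + 1) < p j) : ∀ j ≤ N, Ind (p j) (R.Ph p j)
  | 0, _ => fun _ _ _ _ _ _ => rfl
  | j + 1, hj => Ind.up (hlt j hj) (h := fun o ξ => R.SS (p j) o (R.Ph p j o ξ))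
      fun o ξ s o1 b hs => by simp only [Ph_ind hlt j (by omega) o ξ s o1 b hs]

theorem St_ind (upd : (ℕ → Bool) → Finset ℝ → ℕ → Bool) (hlt : ∀ j < N, p (j + 1) < p j) :
    ∀ j ≤ N, Ind (p j) (R.St upd p j)
  | 0, _ => fun _ _ _ _ _ _ => rfl
  | j + 1, hj => Ind.up (hlt j hj) (h := fun o ξ => upd (R.St upd p j o ξ)
      (VV (E.A (p j)) (R.g (p j) o) (R.SS (p j) o (R.Ph p j o ξ))))
      fun o ξ s o1 b hs => by
        simp only [R.Ph_ind hlt j (by omega) o ξ s o1 b hs, St_ind upd hlt j (by omega) o ξ s o1 b hs]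

theorem AA_comb (t : Fin n) (u1 u2 u3 : O → Fin n → ℝ)
    (h1 h2 : O → (Fin n × O → O) → (Fin n → Bool) → ℝ) :
    R.AA t u1 h1 - R.AA t u2 h1 + 2 * R.AA t u3 h2 = ∑ o, R.P t o * ∑ ξ, R.W ξ *
      (Ex (lw R.K (u1 o)) (h1 o ξ) - Ex (lw R.K (u2 o)) (h1 o ξ) +
        2 * Ex (lw R.K (u3 o)) (h2 o ξ)) := by
  unfold AA
  simp only [mul_add, mul_sub, sum_add_distrib, sum_sub_distrib, mul_sum]
  congr 1
  exact sum_congr rfl fun o _ => sum_congr rfl fun ξ _ => by ring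

/-- the potential along the path -/
noncomputable def ZZ (upd : (ℕ → Bool) → Finset ℝ → ℕ → Bool) (θ : (ℕ → Bool) → ℝ)
    (F : (ℕ → Bool) → ℝ → ℝ) (p : ℕ → Fin n) (D : ℕ → O → Fin n → ℝ) (j : ℕ) : ℝ :=
  R.AA (p j) (fun o v => R.g (p j) o v + 1 * D j o v)
      (fun o ξ X => lab (θ (R.St upd p j o ξ)) (R.Ph p j o ξ X)) -
    R.AA (p j) (fun o v => R.g (p j) o v + (-1) * D j o v)
      (fun o ξ X => lab (θ (R.St upd p j o ξ)) (R.Ph p j o ξ X)) +
    2 * R.AA (p j) (R.g (p j)) (fun o ξ X => F (R.St upd p j o ξ) (R.Ph p j o ξ X))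

theorem ZZ_step {k : ℕ} (hk : ∀ t, (E.A t).card ≤ k)
    {upd : (ℕ → Bool) → Finset ℝ → ℕ → Bool} {θ : (ℕ → Bool) → ℝ}
    {F lam : (ℕ → Bool) → ℝ → ℝ}
    (hm : ∀ s V, V.card ≤ k + 1 → ∀ y ∈ V, ∀ x,
      |lab (θ s) x - lab (θ (upd s V)) y| ≤ F (upd s V) y - F s x + lam s y * (x - y))
    (hp : ∀ j < N, E.par (p j) = p (j + 1)) (hlt : ∀ j < N, p (j + 1) < p j)
    {D : ℕ → O → Fin n → ℝ}
    (hce : ∀ j < N, ∀ o', ∀ a ∈ E.A (p j),
      ∑ o, R.Q (p j) o o' * D (j + 1) o a = R.P (p j) o' * D j o' a)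
    (hl : ∀ j ≤ N, ∀ o, ∀ a ∈ E.B (p j), ∀ b ∈ E.B (p j),
      |D j o a - D j o b| ≤ |R.g (p j) o a - R.g (p j) o b|)
    (hb : ∀ j ≤ N, ∀ o, ∀ a ∈ E.B (p j), |R.g (p j) o a| + |D j o a| ≤ R.K)
    {j : ℕ} (hj : j < N) : R.ZZ upd θ F p D j ≤ R.ZZ upd θ F p D (j + 1) := by
  have ht : E.par (p j) ≠ p j := by rw [hp j hj]; exact (hlt j hj).ne
  have hsub : E.A (p j) ⊆ E.B (p (j + 1)) := by rw [← hp j hj]; exact E.sub _
  set Ψ : O → (Fin n × O → O) → (Fin n → Bool) → ℝ :=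
    fun o ξ => R.SS (p j) o (R.Ph p j o ξ) with hΨ
  set σ : O → (Fin n × O → O) → ℕ → Bool :=
    fun o ξ => upd (R.St upd p j o ξ) (VV (E.A (p j)) (R.g (p j) o) (Ψ o ξ)) with hσ
  have dΨ : ∀ o ξ, DepOn (E.A (p j) : Set (Fin n)) (Ψ o ξ) :=
    fun o ξ => R.SS_dep _ o (R.Ph_dep hp j hj.le o ξ)
  have iΨ : Ind (p j) Ψ := fun o ξ s o1 b hs => by
    simp only [hΨ, R.Ph_ind hlt j hj.le o ξ s o1 b hs]
  have iσ : Ind (p j) σ := fun o ξ s o1 b hs => by
    simp only [hσ, iΨ o ξ s o1 b hs, R.St_ind upd hlt j hj.le o ξ s o1 b hs]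
  have e1 : ∀ s : ℝ, |s| ≤ 1 →
      R.AA (p (j + 1)) (fun o v => R.g (p (j + 1)) o v + s * D (j + 1) o v)
        (fun o ξ X => lab (θ (R.St upd p (j + 1) o ξ)) (R.Ph p (j + 1) o ξ X)) =
      R.AA (p j) (fun o v => R.g (p j) o v + s * D j o v)
        fun o ξ X => lab (θ (σ o ξ)) (Ψ o ξ X) := by
    intro s hs
    have h := R.AA_step ht (u := fun o v => R.g (p (j + 1)) o v + s * D (j + 1) o v)
      (u' := fun o v => R.g (p j) o v + s * D j o v) ?_ ?_ ?_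
      (h := fun o ξ X => lab (θ (σ o ξ)) (Ψ o ξ X))
      (fun o ξ => (dΨ o ξ).comp _)
      (fun o ξ s o1 b hs => by simp only [iΨ o ξ s o1 b hs, iσ o ξ s o1 b hs])
    · rw [hp j hj] at h
      exact h
    · intro o' a ha
      have h1 := R.ce _ ht o' a ha
      rw [hp j hj] at h1
      simp only [mul_add, sum_add_distrib]
      rw [h1, sum_congr rfl fun o _ => mul_left_comm (R.Q (p j) o o') s (D (j + 1) o a),
        ← mul_sum, hce j hj o' a ha]
      ring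
    · intro o' a ha b hb'
      have h1 := R.ord _ ht o' a ha b hb'
      rw [hp j hj] at h1
      exact h1.imp
        (fun h o ho => mono_sign hs (hl (j + 1) hj o a (hsub ha) b (hsub hb')) (h o ho))
        (fun h o ho => mono_sign hs (hl (j + 1) hj o b (hsub hb') a (hsub ha)) (h o ho))
    · exact fun o a ha => abs_sign hs (hb (j + 1) hj o a (hsub ha))
  have e2 : R.AA (p (j + 1)) (R.g (p (j + 1)))
        (fun o ξ X => F (R.St upd p (j + 1) o ξ) (R.Ph p (j + 1) o ξ X)) =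
      R.AA (p j) (R.g (p j)) fun o ξ X => F (σ o ξ) (Ψ o ξ X) := by
    have h := R.AA_step ht (R.ce _ ht) (R.ord _ ht) (fun o a _ => R.bd _ o a)
      (h := fun o ξ X => F (σ o ξ) (Ψ o ξ X))
      (fun o ξ => (dΨ o ξ).comp _)
      (fun o ξ s o1 b hs => by simp only [iΨ o ξ s o1 b hs, iσ o ξ s o1 b hs])
    rw [hp j hj] at h
    exact h
  unfold ZZ
  rw [e1 1 (by norm_num), e1 (-1) (by norm_num), e2, AA_comb, AA_comb]
  refine sum_le_sum fun o _ => mul_le_mul_of_nonneg_left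
    (sum_le_sum fun ξ _ => mul_le_mul_of_nonneg_left ?_ (R.W_nonneg ξ)) (R.P_nonneg _ _)
  exact R.one_step hm (Nat.succ_le_succ (hk _)) o (hl j hj.le o) (hb j hj.le o)
    (R.Ph_dep hp j hj.le o ξ) _ _ rfl

theorem ZZ_zero {upd : (ℕ → Bool) → Finset ℝ → ℕ → Bool} {θ : (ℕ → Bool) → ℝ}
    {F : (ℕ → Bool) → ℝ → ℝ} (hθ : ∀ s, 0 < θ s ∧ θ s ≤ 1) (hF : ∀ s, F s 0 = 0 ∧ F s 1 = 0)
    {D : ℕ → O → Fin n → ℝ} (hb : ∀ o, |R.g (p 0) o (p 0)| + |D 0 o (p 0)| ≤ R.K) :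
    R.ZZ upd θ F p D 0 = (∑ o, R.P (p 0) o * D 0 o (p 0)) / R.K := by
  have hK := R.K_pos
  unfold ZZ
  rw [AA_comb, sum_div]
  refine sum_congr rfl fun o _ => ?_
  have e1 : ∀ ξ, (fun X => lab (θ (R.St upd p 0 o ξ)) (R.Ph p 0 o ξ X)) = H684.val (p 0) := by
    intro ξ
    funext X
    show lab _ (H684.val (p 0) X) = _
    unfold lab
    rcases val_cases (p 0) X with h | h <;> rw [h]
    · exact if_neg (not_le.2 (hθ _).1)
    · exact if_pos (hθ _).2
  have e2 : ∀ ξ, (fun X => F (R.St upd p 0 o ξ) (R.Ph p 0 o ξ X)) = fun _ => 0 := by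
    intro ξ
    funext X
    show F _ (H684.val (p 0) X) = _
    rcases val_cases (p 0) X with h | h <;> rw [h]
    · exact (hF _).1
    · exact (hF _).2
  have e3 : ∀ s : ℝ, |s| ≤ 1 →
      Ex (lw R.K fun v => R.g (p 0) o v + s * D 0 o v) (H684.val (p 0)) =
      (R.g (p 0) o (p 0) + s * D 0 o (p 0) + R.K) / (2 * R.K) := fun s hs =>
    Ex_lw_val (u := fun v => R.g (p 0) o v + s * D 0 o v) (abs_sign hs (hb o))
  simp only [e1, e2, e3 1 (by norm_num), e3 (-1) (by norm_num), Ex_const (lw_isLaw hK _)]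
  rw [← sum_mul, R.W_sum]
  field_simp
  ring

theorem AA_congr {t : Fin n} {u u' : O → Fin n → ℝ} (hu : ∀ o, ∀ a ∈ E.B t, u o a = u' o a)
    {h : O → (Fin n × O → O) → (Fin n → Bool) → ℝ}
    (hd : ∀ o ξ, DepOn (E.B t : Set (Fin n)) (h o ξ)) : R.AA t u h = R.AA t u' h := by
  unfold AA
  refine sum_congr rfl fun o _ => ?_
  refine congrArg (R.P t o * ·) (sum_congr rfl fun ξ _ => ?_)
  rw [Ex_lw_dep _ _ (hd o ξ), Ex_lw_dep _ _ (hd o ξ),
    cutI_congr_fun (h := u o) (h' := u' o) (hu o)]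

theorem AA_le {t : Fin n} (u : O → Fin n → ℝ) (c : ℝ)
    {h h' : O → (Fin n × O → O) → (Fin n → Bool) → ℝ} (hh : ∀ o ξ X, h o ξ X ≤ c * h' o ξ X) :
    R.AA t u h ≤ c * R.AA t u h' := by
  unfold AA
  rw [mul_sum]
  refine sum_le_sum fun o _ => ?_
  rw [mul_left_comm, mul_sum _ _ c]
  refine mul_le_mul_of_nonneg_left (sum_le_sum fun ξ _ => ?_) (R.P_nonneg _ _)
  rw [mul_left_comm, ← Ex_smul _ c]
  exact mul_le_mul_of_nonneg_left (Ex_mono (lw_isLaw R.K_pos _) (hh o ξ)) (R.W_nonneg ξ)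

/-- **The comparison along a path.** -/
theorem path_energy {k : ℕ} (hk : ∀ t, (E.A t).card ≤ k)
    (hp : ∀ j < N, E.par (p j) = p (j + 1)) (hlt : ∀ j < N, p (j + 1) < p j)
    {D : ℕ → O → Fin n → ℝ}
    (hce : ∀ j < N, ∀ o', ∀ a ∈ E.A (p j),
      ∑ o, R.Q (p j) o o' * D (j + 1) o a = R.P (p j) o' * D j o' a)
    (hl : ∀ j ≤ N, ∀ o, ∀ a ∈ E.B (p j), ∀ b ∈ E.B (p j),
      |D j o a - D j o b| ≤ |R.g (p j) o a - R.g (p j) o b|)
    (hb : ∀ j ≤ N, ∀ o, ∀ a ∈ E.B (p j), |R.g (p j) o a| + |D j o a| ≤ R.K)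
    (h0 : ∀ o, ∀ a ∈ E.B (p N), D N o a = 0) :
    ∑ o, R.P (p 0) o * D 0 o (p 0) ≤ CM (k + 1) * (2 * R.K *
      R.AA (p N) (R.g (p N)) fun o ξ X => R.Ph p N o ξ X * (1 - R.Ph p N o ξ X)) := by
  obtain ⟨upd, θ, F, lam, hθ, hF, hFC, hm⟩ := machine (k + 1)
  have hK := R.K_pos
  have all : ∀ j ≤ N, R.ZZ upd θ F p D 0 ≤ R.ZZ upd θ F p D j := by
    intro j
    induction j with
    | zero => exact fun _ => le_rfl
    | succ j ih =>
      exact fun hj => (ih (by omega)).trans (R.ZZ_step hk hm hp hlt hce hl hb hj)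
  have h1 := all N le_rfl
  rw [R.ZZ_zero hθ hF fun o => hb 0 (Nat.zero_le _) o _ (mem_insert_self _ _)] at h1
  unfold ZZ at h1
  rw [R.AA_congr (u' := fun o v => R.g (p N) o v + (-1) * D N o v)
    (fun o a ha => by simp only [h0 o a ha, mul_zero])
    (fun o ξ => (R.Ph_dep hp N le_rfl o ξ).comp _), sub_self, zero_add, div_le_iff₀ hK] at h1
  have h2 := R.AA_le (t := p N) (R.g (p N)) (CM (k + 1))
    (h := fun o ξ X => F (R.St upd p N o ξ) (R.Ph p N o ξ X))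
    (h' := fun o ξ X => R.Ph p N o ξ X * (1 - R.Ph p N o ξ X)) fun o ξ X => hFC _ _
  nlinarith

/-- the energy is at most the probability of separation -/
theorem energy_le (hp : ∀ j < N, E.par (p j) = p (j + 1)) (hlt : ∀ j < N, p (j + 1) < p j)
    {y : Fin n} (hy : ∀ j < N, y ∈ E.Out (p j)) :
    (R.AA (p N) (R.g (p N)) fun o ξ X => R.Ph p N o ξ X * (1 - R.Ph p N o ξ X)) ≤
      R.GM fun _ => dif (p 0) y := by
  rw [← R.GM_bag (p N) (h := fun o ξ X => R.Ph p N o ξ X * (1 - R.Ph p N o ξ X))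
    (fun o ξ => (R.Ph_dep hp N le_rfl o ξ).comp fun z => z * (1 - z))
    (fun o ξ s o1 b hs => by simp only [R.Ph_ind hlt N le_rfl o ξ s o1 b hs])]
  refine sum_le_sum fun ξ _ => mul_le_mul_of_nonneg_left ?_ (R.W_nonneg ξ)
  have hK := R.KQ_ker (R.om ξ)
  have key : ∀ j ≤ N, PM (R.KQ (R.om ξ)) (fun X => (1 - 2 * H684.val y X) * H684.val (p 0) X) =
      PM (R.KQ (R.om ξ)) fun X => (1 - 2 * H684.val y X) * R.Ph p j (R.om ξ (p j)) ξ X := by
    intro j
    induction j with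
    | zero => exact fun _ => rfl
    | succ j ih =>
      intro hj
      have ht : E.par (p j) ≠ p j := by rw [hp j hj]; exact (hlt j hj).ne
      have h1 := R.om_step ξ ht
      rw [hp j hj] at h1
      rw [ih (by omega), PM_key hK (t := p j) (((val_dep y).comp fun z => 1 - 2 * z).mono
        (Set.singleton_subset_iff.2 (hy j hj))) (R.Ph_dep hp j (by omega) _ ξ), R.Sop_KQ, h1]
      rfl
  have e : dif (p 0) y = fun X => H684.val y X + (1 - 2 * H684.val y X) * H684.val (p 0) X := by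
    funext X
    unfold dif H684.val
    cases X (p 0) <;> cases X y <;> norm_num
  rw [e, PM_add, key N le_rfl, ← PM_add]
  refine PM_mono hK fun X => ?_
  rcases val_cases y X with h | h <;> rw [h]
  · nlinarith [sq_nonneg (R.Ph p N (R.om ξ (p N)) ξ X)]
  · nlinarith [sq_nonneg (1 - R.Ph p N (R.om ξ (p N)) ξ X)]

end Env

end Vale.Agent.N235Y
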