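import Vale.Agent.N235Y.Fin

/-!
P235 (helper77): random cuts for all metrics in elimination form, and the explicit constants.
-/

namespace Vale.Agent.N235Y

open Finset Vale.Agent.P235 Vale.Agent.P235.H684 Vale.Agent.P235.H263 Vale.Agent.P235.H483U

variable {n k : ℕ} {A : Fin n → Finset (Fin n)} {d : Fin n → Fin n → ℝ} {κ ε : ℝ}

theorem bag_low {O : Type} [Fintype O] {P u : O → ℝ} (hP : ∀ o, 0 ≤ P o) (hs : ∑ o, P o = 1)
    {c : ℝ} (hc : 0 ≤ c) (h : ∑ o, (if u o < c then P o else 0) ≤ 1 / 2) (hu : ∀ o, 0 ≤ u o) :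
    c / 2 ≤ ∑ o, P o * u o := by
  have h1 : ∀ o, c * (P o - (if u o < c then P o else 0)) ≤ P o * u o := by
    intro o
    split_ifs with h
    · rw [sub_self, mul_zero]
      exact mul_nonneg (hP o) (hu o)
    · rw [sub_zero, mul_comm]
      exact mul_le_mul_of_nonneg_left (not_lt.mp h) (hP o)
  have h2 := sum_le_sum fun o (_ : o ∈ (univ : Finset O)) => h1 o
  rw [← mul_sum, sum_sub_distrib, hs] at h2
  nlinarith

/-- the monitors along a path -/
theorem monitors (hA : IsElim k A) (hS : IsSep A d) (hκ : 0 < κ)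
    (hη : ((k + 1 : ℕ) : ℝ) * ε ≤ H926.PathChain.thSeq (k + 1) (k + 1 - 1) / 4)
    (R : H265.Proc (Fin n) d (par A) (fun t => ¬ (A t).Nonempty) A κ ε) {G : ℝ} (hG0 : 0 ≤ G)
    (hG : ∀ t o p, |R.g t o p| ≤ G) {q : ℕ → Fin n} {N : ℕ} (hp : Path (toElim hA) q N) {r : ℝ}
    (hr : ∀ a ∈ (toElim hA).B (q 0), r ≤ d (q N) a) :
    ∃ D : ℕ → R.O → Fin n → ℝ,
      (∀ i < N, ∀ o', ∀ a ∈ A (q (i + 1)),
        ∑ o, R.Q (q (i + 1)) o o' * D i o a = R.P (q (i + 1)) o' * D (i + 1) o' a) ∧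
      (∀ i ≤ N, ∀ o, ∀ a ∈ insert (q i) (A (q i)), ∀ b ∈ insert (q i) (A (q i)),
        |D i o a - D i o b| ≤ |R.g (q i) o a - R.g (q i) o b|) ∧
      (∀ i ≤ N, ∀ o, ∀ a ∈ insert (q i) (A (q i)), |R.g (q i) o a| + |D i o a| ≤ G * (2 * n + 1)) ∧
      (∀ o a, D 0 o a = 0) ∧
      r ≤ H926.PathChain.C1 (k + 1) κ * ∑ o, R.P (q N) o * D N o (q N) := by
  classical
  have hdn : ∀ p q, 0 ≤ d p q := hS.nonneg
  have hBne : (insert (q 0) (A (q 0))).Nonempty := ⟨q 0, mem_insert_self _ _⟩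
  set rr : Fin n → ℝ := fun v => (insert (q 0) (A (q 0))).inf' hBne fun a => d v a with hrr
  have hNn : (N : ℝ) ≤ n := by
    have := H957.path_le hp N le_rfl
    have h2 := (q N).2
    exact_mod_cast (by omega : N ≤ n)
  set C := H957.chainOf hA R hp with hC
  have hf : rr (q N) ≤ H926.PathChain.C1 (k + 1) κ * ∑ ω, C.P N ω * C.D N ω (q N) :=
    C.fresh (H926.PathChain.params (Nat.succ_pos k) hκ hη) (r := rr) (d := d)
      (fun i _ => (hA.card _).trans (Nat.le_succ k))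
      (fun v hv => (inf'_le _ (show v ∈ insert (q 0) (A (q 0)) from hv)).trans (hS.self v).le)
      (fun i _ a _ => by
        show rr (q (i + 1)) ≤ rr a + d (q (i + 1)) a
        obtain ⟨b, hb, hb'⟩ := exists_mem_eq_inf' hBne fun b => d a b
        have h5 : rr a = d a b := hb'
        rw [h5]
        refine (inf'_le _ hb).trans ?_
        have := hS.tri (q (i + 1)) a b
        linarith)
      (fun i _ a _ => hdn _ _)
      (fun i _ a _ => (R.mean hdn (q (i + 1)) (q (i + 1)) a).trans (half_le_self (hdn _ _)))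
      (fun i _ a ha => R.ac (q (i + 1)) (q (i + 1)) (mem_insert_self _ _) a
        (mem_insert_of_mem ha))
      (x := q N) (mem_insert_self _ _) (Nat.succ_pos k)
  have hPD : ∀ i w p, R.P (q i) w * (if 0 < R.P (q i) w then C.D i w p else 0) =
      R.P (q i) w * C.D i w p := by
    intro i w p
    split_ifs with h
    · rfl
    · rw [le_antisymm (not_lt.mp h) (R.P_nonneg _ w), zero_mul, zero_mul]
  refine ⟨fun i w p => if 0 < R.P (q i) w then C.D i w p else 0, fun i hi o' a ha => ?_,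
    fun i hi o a ha b hb => ?_, fun i hi o a ha => ?_, fun o a => ite_self _, ?_⟩
  · rw [hPD]
    refine Eq.trans (sum_congr rfl fun w _ => ?_) (C.P_mul_D hi ha o').symm
    show R.Q (q (i + 1)) w o' * (if 0 < R.P (q i) w then C.D i w a else 0) =
      R.Q (q (i + 1)) w o' * C.D i w a
    split_ifs with h
    · rfl
    · have h2 : ∑ w', R.Q (q (i + 1)) w w' = R.P (q i) w := C.Q_left i hi w
      rw [le_antisymm (not_lt.mp h) (R.P_nonneg _ w)] at h2
      rw [(sum_eq_zero_iff_of_nonneg fun w' _ => R.Q_nonneg _ w w').mp h2 o' (mem_univ _),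
        zero_mul, zero_mul]
  · dsimp only
    split_ifs with h
    · exact C.D_lip i hi o h a ha b hb
    · simp
  · have h5 : |if 0 < R.P (q i) o then C.D i o a else 0| ≤ 2 * G * i := by
      split_ifs with h
      · rw [abs_of_nonneg (H485.D_nonneg C i o a)]
        exact H485.D_le C (fun i _ w p _ => hG _ _ _) hG0 i hi o a ha
      · rw [abs_zero]
        positivity
    have h6 := hG (q i) o a
    have h7 : (i : ℝ) ≤ N := by exact_mod_cast hi
    nlinarith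
  · simp only [hPD]
    exact (le_inf' _ _ fun a ha => hr a ha).trans hf

/-- the random cut of a process -/
theorem cut_of_proc (hn : 0 < n) (hA : IsElim k A) (hS : IsSep A d) (hκ : 0 < κ) (hε : ε ≤ 1 / 2)
    (hη : ((k + 1 : ℕ) : ℝ) * ε ≤ H926.PathChain.thSeq (k + 1) (k + 1 - 1) / 4)
    (R : H265.Proc (Fin n) d (par A) (fun t => ¬ (A t).Nonempty) A κ ε) :
    ∃ (Ω : Type) (_ : Fintype Ω) (P : Ω → ℝ) (X : Ω → Fin n → Bool), (∀ σ, 0 ≤ P σ) ∧
      (∀ j, ∀ i ∈ A j, ∑ σ, P σ * (if X σ i = X σ j then 0 else 1) ≤ d i j) ∧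
      ∀ i j, min (min (κ / 2) 1 / 2) (min (κ / 2) 1 / 8 /
        (H926.PathChain.C1 (k + 1) κ * CM (k + 1))) * d i j ≤
          ∑ σ, P σ * (if X σ i = X σ j then 0 else 1) := by
  classical
  obtain ⟨G, hG0, hG⟩ := R.exists_bound
  have hn0 : (0 : ℝ) ≤ n := Nat.cast_nonneg n
  have hGK : G ≤ G * (2 * n + 1) := by nlinarith
  have hC1 := H926.PathChain.C1_pos (Nat.succ_pos k) hκ
  have hdn : ∀ p q, 0 ≤ d p q := hS.nonneg
  obtain ⟨o0⟩ : Nonempty R.O := by
    by_contra h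
    have h1 := R.P_sum ⟨0, hn⟩
    rw [not_nonempty_iff] at h
    simp at h1
  set R' := envOf hA R o0 (hG0.trans_le hGK) fun t o p => (hG t o p).trans hGK with hR'
  obtain ⟨Ω, hΩ, P, X, h0, h1⟩ := cut_env R'
  have hb : ∀ t, ∀ p ∈ (toElim hA).B t, ∀ p' ∈ (toElim hA).B t,
      min (κ / 2) 1 * d p p' ≤ 2 * R'.K * R'.GM (fun _ => dif p p') ∧
        2 * R'.K * R'.GM (fun _ => dif p p') ≤ d p p' := by
    intro t p hp p' hp'
    rw [GM_dif R' hp hp']
    refine ⟨?_, (R.mean hdn t p p').trans (half_le_self (hdn _ _))⟩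
    have h2 := bag_low (R.P_nonneg t) (R.P_sum t) (mul_nonneg hκ.le (hdn p p'))
      ((R.ac t p hp p' hp').trans hε) fun _ => abs_nonneg _
    refine le_trans ?_ h2
    have := mul_le_mul_of_nonneg_right (min_le_left (κ / 2) 1) (hdn p p')
    linarith
  refine ⟨Ω, hΩ, P, X, h0, fun j i hi => ?_, fun i j => ?_⟩
  · rw [h1]
    exact (hb j i (mem_insert_of_mem hi) j (mem_insert_self _ _)).2
  · rw [h1]
    refine end_abs (ρ := fun i j => 2 * R'.K * R'.GM fun _ => dif i j) hn hA hS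
      (lt_min (by positivity) one_pos) (min_le_right _ _) (mul_pos hC1 (CM_pos _))
      (fun i => by rw [GM_self, mul_zero])
      (fun i j => by rw [funext (dif_symm i j)])
      (fun i j l => by
        rw [← mul_add]
        exact mul_le_mul_of_nonneg_left (GM_tri R' i j l) (by linarith [R'.K_pos]))
      hb (fun q N hq v hv r hr => ?_) i j
    obtain ⟨D, d1, d2, d3, d4, d5⟩ := monitors hA hS hκ hη R hG0.le hG hq hr
    rw [mul_assoc]
    exact d5.trans (mul_le_mul_of_nonneg_left (far_env R' hA.card hq d1 d2 d3 d4 hv) hC1.le)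

theorem exists_target (k : ℕ) : ∃ c : ℝ, 0 < c ∧ Target k c ∧
    1 / c ≤ 16 * (W k : ℝ) * ((W k : ℝ) * (4 * ((k : ℝ) + 1)) ^ (k + 1)) ^ (k + 1) *
      CM (k + 1) := by
  have hkk : 0 < k + 1 := Nat.succ_pos k
  obtain ⟨κ, hκ, hW, H⟩ := exists_proc_elim k (MM_pos k)
  have hM4 : (4 : ℝ) ≤ MM k := by
    have h : 4 ≤ MM k := by
      unfold MM
      calc 4 ≤ 4 * (k + 1) := by omega
        _ = (4 * (k + 1)) ^ 1 := (pow_one _).symm
        _ ≤ _ := Nat.pow_le_pow_right (by omega) (by omega)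
    exact_mod_cast h
  have hC1p := H926.PathChain.C1_pos hkk hκ
  have hκ' : 0 < min (κ / 2) (1 : ℝ) := lt_min (by positivity) one_pos
  have hE0 := CM_pos (k + 1)
  have hcp : 0 < min (min (κ / 2) 1 / 2) (min (κ / 2) 1 / 8 /
      (H926.PathChain.C1 (k + 1) κ * CM (k + 1))) := lt_min (by positivity) (by positivity)
  refine ⟨_, hcp, fun n A d hn hA hS => ?_, ?_⟩
  · obtain ⟨R⟩ := H n A d hA hS
    refine cut_of_proc hn hA hS hκ ?_ (hyp_eta k) R
    rw [div_le_div_iff₀ (by linarith) (by norm_num)]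
    linarith
  · have hw : (1 : ℝ) ≤ W k := by exact_mod_cast W_pos k
    have hC := C1_le hkk hκ hw (by exact hW)
    push_cast at hC
    set B : ℝ := ((W k : ℝ) * (4 * ((k : ℝ) + 1)) ^ (k + 1)) ^ (k + 1) with hB
    have hE1 : 1 ≤ CM (k + 1) := by
      unfold CM
      have h1 : (1 : ℝ) ≤ 16 ^ (k + 1) := one_le_pow₀ (by norm_num)
      have h2 : (0 : ℝ) ≤ ((k + 1 : ℕ) : ℝ) := Nat.cast_nonneg _
      nlinarith
    set E : ℝ := CM (k + 1) with hE
    have hC1 : H926.PathChain.C1 (k + 1) κ ≤ B := by linarith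
    have hB1 : 1 ≤ B := by linarith
    have hk2 : 1 / (2 * (W k : ℝ)) ≤ min (κ / 2) 1 := by
      refine le_min ?_ ?_
      · have : 1 / (2 * (W k : ℝ)) = 1 / (W k : ℝ) / 2 := by field_simp
        rw [this]
        have h2 : 1 / (W k : ℝ) ≤ κ := hW
        linarith
      · rw [div_le_one (by linarith)]
        linarith
    have hc : 1 / (16 * (W k : ℝ) * B * E) ≤ min (min (κ / 2) 1 / 2) (min (κ / 2) 1 / 8 /
        (H926.PathChain.C1 (k + 1) κ * E)) := by
      refine le_min ?_ ?_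
      · have h1 : 1 / (16 * (W k : ℝ) * B * E) ≤ 1 / (2 * (W k : ℝ)) / 2 := by
          rw [div_div, div_le_div_iff₀ (by positivity) (by positivity)]
          have h2 : 1 ≤ B * E := by nlinarith
          nlinarith
        linarith
      · have h1 : 1 / (16 * (W k : ℝ) * B * E) = 1 / (2 * (W k : ℝ)) / 8 / (B * E) := by
          field_simp
          norm_num
        rw [h1]
        refine div_le_div₀ (by positivity) (by linarith) (by positivity) ?_
        exact mul_le_mul_of_nonneg_right hC1 (by positivity)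
    rw [div_le_iff₀ (by positivity)] at hc
    rw [div_le_iff₀ hcp]
    linarith

theorem W_le' (k : ℕ) : W k ≤ (4 * (k + 1)) ^ (129 * (k + 1) ^ 7) := by
  obtain ⟨b, hb⟩ : ∃ b, b = 4 * (k + 1) := ⟨_, rfl⟩
  have hb4 : 4 ≤ b := by omega
  have hb0 : 0 < b := by omega
  have hM : MM k = b ^ (k + 2) := by rw [hb]; rfl
  have h57 := pow_mono_K k (show 5 ≤ 7 by norm_num)
  have h47 := pow_mono_K k (show 4 ≤ 7 by norm_num)
  have h27 := pow_mono_K k (show 2 ≤ 7 by norm_num)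
  have h17 := pow_mono_K k (show 1 ≤ 7 by norm_num)
  rw [pow_one] at h17
  have h1 : 2 * MM k ≤ b ^ (k + 3) := by
    rw [hM, pow_succ' b (k + 2)]
    exact Nat.mul_le_mul_right _ (by omega)
  have h2 : (2 * MM k) ^ H732.Bags.LL k ≤ b ^ ((k + 3) * (24 * (k + 1) ^ 4)) := by
    refine (Nat.pow_le_pow_left h1 _).trans ?_
    rw [← pow_mul]
    exact Nat.pow_le_pow_right hb0 (Nat.mul_le_mul_left _ (LL_le k))
  have h3 : (2 * MM k) ^ H732.Bags.LL k + 1 ≤ b ^ ((k + 3) * (24 * (k + 1) ^ 4) + 1) := by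
    have h4 : 1 ≤ b ^ ((k + 3) * (24 * (k + 1) ^ 4)) := Nat.one_le_pow _ _ hb0
    rw [pow_succ]
    nlinarith
  have h4 : ((k + 3) * (24 * (k + 1) ^ 4) + 1) * (k * k) ≤ 25 * (k + 1) ^ 7 := by
    have h5 : (k + 3) * (k * k) ≤ (k + 1) ^ 3 := by nlinarith
    have h6 : k * k ≤ (k + 1) ^ 2 := by nlinarith
    calc _ = 24 * (k + 1) ^ 4 * ((k + 3) * (k * k)) + k * k := by ring
      _ ≤ 24 * (k + 1) ^ 4 * (k + 1) ^ 3 + (k + 1) ^ 7 :=
          Nat.add_le_add (Nat.mul_le_mul_left _ h5) (h6.trans h27)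
      _ = _ := by ring
  have h5 : nC k (H732.Bags.LL k) (2 * MM k) ≤
      b ^ (25 * (k + 1) ^ 7) * b ^ (24 * (k + 1) ^ 7) := by
    unfold nC
    refine Nat.mul_le_mul ((Nat.pow_le_pow_left h3 _).trans ?_) ?_
    · rw [← pow_mul]
      exact Nat.pow_le_pow_right hb0 h4
    · exact (Nat.pow_le_pow_left (by omega) _).trans
        (Nat.pow_le_pow_right hb0 ((LL_le k).trans (by omega)))
  have h6 : (k + 3) * (24 * (k + 1) ^ 4) ≤ 72 * (k + 1) ^ 7 := by
    calc _ ≤ (3 * (k + 1)) * (24 * (k + 1) ^ 4) := Nat.mul_le_mul_right _ (by omega)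
      _ = 72 * (k + 1) ^ 5 := by ring
      _ ≤ _ := by omega
  have h7 : 192 ≤ b ^ 4 := le_trans (by norm_num) (Nat.pow_le_pow_left hb4 4)
  rw [← hb]
  unfold W WW
  calc _ ≤ b ^ 4 * (b ^ (k + 2)) ^ 2 * (b ^ (25 * (k + 1) ^ 7) * b ^ (24 * (k + 1) ^ 7)) *
        b ^ (72 * (k + 1) ^ 7) :=
        Nat.mul_le_mul (Nat.mul_le_mul (Nat.mul_le_mul h7 (by rw [hM])) h5)
          (h2.trans (Nat.pow_le_pow_right hb0 h6))
    _ = b ^ (4 + (k + 2) * 2 + (25 * (k + 1) ^ 7 + 24 * (k + 1) ^ 7) + 72 * (k + 1) ^ 7) := by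
        rw [← pow_mul, ← pow_add, ← pow_add, ← pow_add, ← pow_add]
    _ ≤ _ := Nat.pow_le_pow_right hb0 (by omega)

theorem total_le (k : ℕ) : 16 * W k * (W k * (4 * (k + 1)) ^ (k + 1)) ^ (k + 1) *
    (4 * (k + 1 + 1) * 16 ^ (k + 1)) ≤ (4 * (k + 1)) ^ (270 * (k + 1) ^ 8) := by
  have h1 := W_le' k
  obtain ⟨b, hb⟩ : ∃ b, b = 4 * (k + 1) := ⟨_, rfl⟩
  have hb4 : 4 ≤ b := by omega
  have hb0 : 0 < b := by omega
  rw [← hb] at h1 ⊢
  have h78 := pow_mono_K k (show 7 ≤ 8 by norm_num)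
  have h17 := pow_mono_K k (show 1 ≤ 7 by norm_num)
  rw [pow_one] at h17
  have h16 : 16 ≤ b ^ 2 := Nat.pow_le_pow_left hb4 2
  have h3 : (W k * b ^ (k + 1)) ^ (k + 1) ≤ b ^ (130 * (k + 1) ^ 8) := by
    refine (Nat.pow_le_pow_left (Nat.mul_le_mul_right _ h1) _).trans ?_
    rw [← pow_add, ← pow_mul]
    refine Nat.pow_le_pow_right hb0 ?_
    calc _ ≤ 130 * (k + 1) ^ 7 * (k + 1) := Nat.mul_le_mul_right _ (by omega)
      _ = _ := by ring
  have h4 : 4 * (k + 1 + 1) * 16 ^ (k + 1) ≤ b ^ 2 * (b ^ 2) ^ (k + 1) :=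
    Nat.mul_le_mul (by nlinarith) (Nat.pow_le_pow_left h16 _)
  calc _ ≤ b ^ 2 * b ^ (129 * (k + 1) ^ 7) * b ^ (130 * (k + 1) ^ 8) *
        (b ^ 2 * (b ^ 2) ^ (k + 1)) :=
        Nat.mul_le_mul (Nat.mul_le_mul (Nat.mul_le_mul h16 h1) h3) h4
    _ = b ^ (2 + 129 * (k + 1) ^ 7 + 130 * (k + 1) ^ 8 + (2 + 2 * (k + 1))) := by
        rw [← pow_mul, ← pow_add, ← pow_add, ← pow_add, ← pow_add]
    _ ≤ _ := Nat.pow_le_pow_right hb0 (by omega)

/-- **Connected graphs of treewidth at most `k`** embed into `L₁` with distortion at most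
`(4 (k+1)) ^ (270 (k+1)^8)`, for all positive edge lengths. -/
theorem tw_growth (k : ℕ) (V : Type) [Finite V] (G : SimpleGraph V) (hc : G.Connected)
    (hG : TreewidthLE G k) : DistortionLE G ((4 * (k + 1)) ^ (270 * (k + 1) ^ 8)) := by
  obtain ⟨c, hc0, hT, hle⟩ := exists_target k
  refine DistortionLE.mono (distortion_of_target hc0 hT hc hG) (hle.trans ?_)
  unfold CM
  exact_mod_cast total_le k

theorem growth_le (k : ℕ) : (4 * (k + 1)) ^ (270 * (k + 1) ^ 8) ≤ 2 ^ (600 * (k + 1) ^ 9) := by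
  refine (Nat.pow_le_pow_left (four_le (k + 1) (by omega)) _).trans ?_
  rw [← pow_mul]
  refine Nat.pow_le_pow_right (by norm_num) ?_
  calc _ ≤ (2 * (k + 1)) * (300 * (k + 1) ^ 8) := Nat.mul_le_mul (by omega) (by omega)
    _ = _ := by ring

theorem grid_growth (r : ℕ) (V : Type) [Finite V] (G : SimpleGraph V) (hG : G.Connected)
    (hn : ¬ H134.IsMinor (H134.grid r) G) : DistortionLE G (2 ^ (r ^ (181 * r ^ 5))) := by
  rcases Nat.lt_or_ge r 2 with hr | hr
  · exact absurd (H134.grid_small hG r hr) hn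
  have h1 : TreewidthLE G (gw r) := by
    by_contra h
    exact hn (grid_exp r hr V G hG h)
  refine DistortionLE.mono (tw_growth (gw r) V G hG h1)
    (le_trans (b := 2 ^ (600 * (gw r + 1) ^ 9)) (by exact_mod_cast growth_le (gw r))
      (pow_le_pow_right₀ (by norm_num) ?_))
  have h5 : 32 ≤ r ^ 5 := Nat.pow_le_pow_left hr 5
  have h2 : 600 ≤ r ^ (r ^ 5) :=
    le_trans (by norm_num) ((Nat.pow_le_pow_left hr 10).trans
      (Nat.pow_le_pow_right (by omega) (by omega)))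
  calc 600 * (gw r + 1) ^ 9 ≤ r ^ (r ^ 5) * (r ^ (20 * r ^ 5)) ^ 9 :=
        Nat.mul_le_mul h2 (Nat.pow_le_pow_left (gw_le r hr) 9)
    _ = _ := by rw [← pow_mul, ← pow_add]; congr 1; ring

end Vale.Agent.N235Y
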